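import Crest.Agent.Lib.Egy.Steps

/-!
# The chains of steps of both phases
-/

set_option autoImplicit false
set_option exponentiation.threshold 3000

namespace Crest.Agent.Egy

open Finset

/-- Early part of the first phase. -/
theorem chainI_early {P₀ P₁ L₀ L F₀ B l₀ : ℕ} (par : AlgPar P₀ P₁ L₀ L F₀ B) {target : ℚ}
    (hl₀ : 2 ^ 1036 ≤ l₀) (n : ℕ) :
    ∀ (T : Finset ℕ) (W E k X : ℕ), SI P₀ P₁ F₀ B target T W E k X → k + 1 + l₀ ≤ X →
      L * 21 ^ n ≤ (X - k - 1) * 22 ^ n →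
      ∃ (T' : Finset ℕ) (W' E' k' X' : ℕ), SI P₀ P₁ F₀ B target T' W' E' k' X' ∧
        T'.card ≤ T.card + 18 * n ∧ k' + 1 + l₀ ≤ X' ∧ E' + X ≤ E + X' ∧ E ≤ E' ∧
        (W' < 17 * (P₀ * P₁) ∨ k' + 1 + L ≤ X') := by
  have hl5 : 100000 ≤ l₀ := le_trans (by norm_num) hl₀
  have hLbig := par.hLbig
  induction n with
  | zero =>
    intro T W E k X hS hX hpot
    simp only [pow_zero, mul_one] at hpot
    exact ⟨T, W, E, k, X, hS, by omega, hX, le_rfl, le_rfl, Or.inr (by omega)⟩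
  | succ n ih =>
    intro T W E k X hS hX hpot
    by_cases hW : W < 17 * (P₀ * P₁)
    · exact ⟨T, W, E, k, X, hS, by omega, hX, le_rfl, le_rfl, Or.inl hW⟩
    by_cases htop : k + 1 + L ≤ X
    · exact ⟨T, W, E, k, X, hS, by omega, hX, le_rfl, le_rfl, Or.inr htop⟩
    obtain ⟨x, T₁, W₁, hXx, hxE, hS₁, hcard⟩ := stepI par hS (not_lt.mp hW) (by omega)
    set l := min (x - k - 1) L with hl
    have hl₁ : X - k - 1 ≤ l := by
      rw [hl]
      apply le_min <;> omega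
    have hl₂ : l ≤ x - k - 1 := min_le_left _ _
    set y := X - k - 1 with hy
    have hy5 : 100000 ≤ y := by omega
    have hlx : l ≤ x := by omega
    have hkx : k + 1 ≤ x := by omega
    have hl20 : y / 20 ≤ l / 20 := Nat.div_le_div_right hl₁
    set y₁ := x + l / 20 - 1 - (x - l) - 1 with hy₁
    have hyy : 22 * y ≤ 21 * y₁ := by omega
    have hpot' : L * 21 ^ n ≤ y₁ * 22 ^ n := by
      apply Nat.le_of_mul_le_mul_left _ (by norm_num : 0 < 21)
      calc 21 * (L * 21 ^ n) = L * 21 ^ (n + 1) := by rw [pow_succ]; ring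
        _ ≤ y * 22 ^ (n + 1) := hpot
        _ = (22 * y) * 22 ^ n := by rw [pow_succ]; ring
        _ ≤ (21 * y₁) * 22 ^ n := Nat.mul_le_mul_right _ hyy
        _ = 21 * (y₁ * 22 ^ n) := by ring
    obtain ⟨T', W', E', k', X', hS', hc, hk', hE', hE'', hd⟩ :=
      ih T₁ (2 * W₁) (E + 1) (x - l) (x + l / 20 - 1) hS₁ (by omega) hpot'
    refine ⟨T', W', E', k', X', hS', ?_, hk', ?_, ?_, hd⟩
    · rw [mul_add, mul_one]
      omega
    · omega
    · omega

/-- Top part of the first phase. -/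
theorem chainI_top {P₀ P₁ L₀ L F₀ B : ℕ} (par : AlgPar P₀ P₁ L₀ L F₀ B) {target : ℚ} (n : ℕ) :
    ∀ (T : Finset ℕ) (W E k X : ℕ), SI P₀ P₁ F₀ B target T W E k X → k + 1 + L ≤ X →
      E ≤ X + n * (L / 21) + 3 →
      ∃ (T' : Finset ℕ) (W' E' k' X' : ℕ), SI P₀ P₁ F₀ B target T' W' E' k' X' ∧
        T'.card ≤ T.card + 18 * n ∧ E ≤ E' ∧ W' < 17 * (P₀ * P₁) := by
  have hLbig := par.hLbig
  have hl5 : 100000 ≤ L := le_trans (by norm_num) hLbig
  induction n with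
  | zero =>
    intro T W E k X hS hX hpot
    by_cases hW : W < 17 * (P₀ * P₁)
    · exact ⟨T, W, E, k, X, hS, by omega, le_rfl, hW⟩
    · exfalso
      obtain ⟨x, T₁, W₁, hXx, hxE, _⟩ := stepI par hS (not_lt.mp hW) (by omega)
      simp only [zero_mul] at hpot
      omega
  | succ n ih =>
    intro T W E k X hS hX hpot
    by_cases hW : W < 17 * (P₀ * P₁)
    · exact ⟨T, W, E, k, X, hS, by omega, le_rfl, hW⟩
    obtain ⟨x, T₁, W₁, hXx, hxE, hS₁, hcard⟩ := stepI par hS (not_lt.mp hW) (by omega)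
    have hl : min (x - k - 1) L = L := min_eq_right (by omega)
    rw [hl] at hS₁
    have hexp : (n + 1) * (L / 21) = n * (L / 21) + L / 21 := by ring
    obtain ⟨T', W', E', k', X', hS', hc, hE', hd⟩ :=
      ih T₁ (2 * W₁) (E + 1) (x - L) (x + L / 20 - 1) hS₁ (by omega) (by omega)
    refine ⟨T', W', E', k', X', hS', ?_, by omega, hd⟩
    rw [mul_add, mul_one]
    omega

/-- Top part of the second phase. -/
theorem chainII_top {P₀ P₁ L₀ L F₀ B l₀ : ℕ} (par : AlgPar P₀ P₁ L₀ L F₀ B) {target : ℚ}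
    (hl₀ : 2 ^ 1036 ≤ l₀) (hl₀L : l₀ ≤ L) (E n : ℕ) :
    ∀ (T : Finset ℕ) (W kold β : ℕ), SII P₀ P₁ F₀ B L target T W E kold β →
      β ≤ 2 * L + 2 + n * (L / 21) →
      ∃ (T' : Finset ℕ) (W' kold' β' : ℕ), SII P₀ P₁ F₀ B L target T' W' E kold' β' ∧
        T'.card ≤ T.card + 17 * n ∧ β' ≤ 2 * L + 2 := by
  have hLbig := par.hLbig
  have hl5 : 100000 ≤ L := le_trans (by norm_num) hLbig
  induction n with
  | zero =>
    intro T W kold β hS hβ
    simp only [zero_mul, add_zero] at hβ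
    exact ⟨T, W, kold, β, hS, by omega, hβ⟩
  | succ n ih =>
    intro T W kold β hS hβ
    by_cases hβ2 : β ≤ 2 * L + 2
    · exact ⟨T, W, kold, β, hS, by omega, hβ2⟩
    by_cases hW : W < 2 ^ (2 * L + 2)
    · refine ⟨T, W, kold, 2 * L + 2, ⟨hS.two_le, hS.old, hS.sum_eq, hW, ?_, hS.hk⟩, by omega, le_rfl⟩
      exact lt_of_le_of_lt (phi_mono L (by omega)) hS.hφ
    have hW' : 2 ^ (2 * L + 2) ≤ W := not_lt.mp hW
    have hW2 : 2 ^ (2 * l₀ + 2) ≤ W :=
      (Nat.pow_le_pow_right (by norm_num) (by omega)).trans hW'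
    obtain ⟨b, T₁, W₁, hbβ, hb, hWb, hS₁, hcard⟩ := stepII par hS hl₀ hW2
    have hbL : 2 * L + 2 < b := by
      by_contra hcon
      have : 2 ^ b ≤ 2 ^ (2 * L + 2) := Nat.pow_le_pow_right (by norm_num) (by omega)
      omega
    have hmin : min (b / 2) L = L := min_eq_right (by omega)
    have hphi : phi L b = b - 1 - L := by
      unfold phi
      rw [hmin]
    rw [hmin] at hS₁
    have hexp : (n + 1) * (L / 21) = n * (L / 21) + L / 21 := by ring
    obtain ⟨T', W', k', β', hS', hc, hβ'⟩ :=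
      ih T₁ W₁ (phi L b) (phi L b + (L - L / 20)) hS₁ (by rw [hphi]; omega)
    refine ⟨T', W', k', β', hS', ?_, hβ'⟩
    rw [mul_add, mul_one]
    omega

/-- Bottom part of the second phase. -/
theorem chainII_bot {P₀ P₁ L₀ L F₀ B l₀ : ℕ} (par : AlgPar P₀ P₁ L₀ L F₀ B) {target : ℚ}
    (hl₀ : 2 ^ 1036 ≤ l₀) (E n : ℕ) :
    ∀ (T : Finset ℕ) (W kold β : ℕ), SII P₀ P₁ F₀ B L target T W E kold β →
      β ≤ 2 * L + 2 → β * 40 ^ n ≤ (2 * l₀ + 2) * 41 ^ n →
      ∃ (T' : Finset ℕ) (W' kold' β' : ℕ), SII P₀ P₁ F₀ B L target T' W' E kold' β' ∧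
        T'.card ≤ T.card + 17 * n ∧ W' < 2 ^ (2 * l₀ + 2) := by
  have hl5 : 100000 ≤ l₀ := le_trans (by norm_num) hl₀
  induction n with
  | zero =>
    intro T W kold β hS _ hβ
    simp only [pow_zero, mul_one] at hβ
    refine ⟨T, W, kold, β, hS, by omega, ?_⟩
    exact hS.hβ.trans_le (Nat.pow_le_pow_right (by norm_num) hβ)
  | succ n ih =>
    intro T W kold β hS hβL hβ
    by_cases hW : W < 2 ^ (2 * l₀ + 2)
    · exact ⟨T, W, kold, β, hS, by omega, hW⟩
    obtain ⟨b, T₁, W₁, hbβ, hb, _, hS₁, hcard⟩ := stepII par hS hl₀ (not_lt.mp hW)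
    set l := min (b / 2) L with hl
    have hl1 : l + 1 ≥ b / 2 := by
      rw [hl]
      have : l = b / 2 ∨ l = L := by
        rw [hl]
        exact min_choice _ _
      omega
    have hl2 : l ≤ b / 2 := min_le_left _ _
    have hphi : phi L b = b - 1 - l := rfl
    set β₁ := phi L b + (l - l / 20) with hβ₁
    have hβ₁eq : β₁ = b - 1 - l / 20 := by
      rw [hβ₁, hphi]
      omega
    have h41 : 41 * β₁ ≤ 40 * β := by
      rw [hβ₁eq]
      omega
    have hpot : β₁ * 40 ^ n ≤ (2 * l₀ + 2) * 41 ^ n := by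
      apply Nat.le_of_mul_le_mul_left _ (by norm_num : 0 < 41)
      calc 41 * (β₁ * 40 ^ n) = (41 * β₁) * 40 ^ n := by ring
        _ ≤ (40 * β) * 40 ^ n := Nat.mul_le_mul_right _ h41
        _ = β * 40 ^ (n + 1) := by rw [pow_succ]; ring
        _ ≤ (2 * l₀ + 2) * 41 ^ (n + 1) := hβ
        _ = 41 * ((2 * l₀ + 2) * 41 ^ n) := by rw [pow_succ]; ring
    obtain ⟨T', W', k', β', hS', hc, hW'⟩ :=
      ih T₁ W₁ (phi L b) β₁ hS₁ (by omega) hpot
    refine ⟨T', W', k', β', hS', ?_, hW'⟩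
    rw [mul_add, mul_one]
    omega

end Crest.Agent.Egy
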