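import Crest.Agent.Lib.Egy.Chain

/-!
# The opening and closing moves of the algorithm
-/

set_option autoImplicit false
set_option exponentiation.threshold 3000

namespace Crest.Agent.Egy

open Finset

lemma two_pow_odd_unique {a b x y : ℕ} (hx : Odd x) (hy : Odd y) (h : 2 ^ a * x = 2 ^ b * y) :
    a = b ∧ x = y := by
  have aux : ∀ {a b x y : ℕ}, Odd x → a < b → 2 ^ a * x ≠ 2 ^ b * y := by
    intro a b x y hx hab h
    obtain ⟨c, rfl⟩ := Nat.exists_eq_add_of_lt hab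
    have h1 : 2 ^ (a + c + 1) * y = 2 ^ a * (2 * (2 ^ c * y)) := by
      rw [pow_succ, pow_add]
      ring
    rw [h1] at h
    have h2 := Nat.eq_of_mul_eq_mul_left (Nat.two_pow_pos a) h
    rw [h2] at hx
    exact (Nat.not_even_iff_odd.mpr hx) (even_two_mul _)
  rcases lt_trichotomy a b with hab | hab | hab
  · exact absurd h (aux hx hab)
  · subst hab
    exact ⟨rfl, Nat.eq_of_mul_eq_mul_left (Nat.two_pow_pos a) h⟩
  · exact absurd h.symm (aux hy hab)

/-- Pigeonhole: an odd multiplier avoiding a finite set of denominators. -/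
lemma exists_tau (T : Finset ℕ) (Q : ℕ) (hQ : Odd Q) :
    ∃ c ≤ T.card, ∀ e, ∀ n ∈ T, n ≠ 2 ^ e * ((2 * c + 1) * Q) := by
  classical
  by_contra hcon
  push Not at hcon
  have hQ0 : 0 < Q := hQ.pos
  have h1 : ∀ c : ℕ, ∃ n, c ≤ T.card → n ∈ T ∧ ∃ e, n = 2 ^ e * ((2 * c + 1) * Q) := by
    intro c
    by_cases hc : c ≤ T.card
    · obtain ⟨e, n, hn, he⟩ := hcon c hc
      exact ⟨n, fun _ => ⟨hn, e, he⟩⟩
    · exact ⟨0, fun h => absurd h hc⟩
  choose f hf using h1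
  have hmaps : ∀ c ∈ Finset.range (T.card + 1), f c ∈ T := fun c hc =>
    (hf c (by have := Finset.mem_range.mp hc; omega)).1
  obtain ⟨c, hc, c', hc', hne, heq⟩ :=
    Finset.exists_ne_map_eq_of_card_lt_of_maps_to (by simp) hmaps
  obtain ⟨_, e, he⟩ := hf c (by have := Finset.mem_range.mp hc; omega)
  obtain ⟨_, e', he'⟩ := hf c' (by have := Finset.mem_range.mp hc'; omega)
  rw [heq, he'] at he
  have hodd : ∀ c : ℕ, Odd ((2 * c + 1) * Q) := fun c => (odd_two_mul_add_one c).mul hQ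
  obtain ⟨_, h3⟩ := two_pow_odd_unique (hodd c') (hodd c) he
  have h4 := Nat.eq_of_mul_eq_mul_right hQ0 h3
  omega

/-- Binary digits. -/
lemma exists_bits (n : ℕ) : ∀ Y : ℕ, Y < 2 ^ n →
    ∃ M : Finset ℕ, M ⊆ Finset.range n ∧ ∑ i ∈ M, 2 ^ i = Y := by
  induction n with
  | zero =>
    intro Y hY
    refine ⟨∅, by simp, ?_⟩
    simp at hY
    simp [hY]
  | succ n ih =>
    intro Y hY
    by_cases h : Y < 2 ^ n
    · obtain ⟨M, hM, hs⟩ := ih Y h
      exact ⟨M, hM.trans (Finset.range_subset_range.mpr (by omega)), hs⟩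
    · have h1 : Y - 2 ^ n < 2 ^ n := by
        rw [pow_succ] at hY
        omega
      obtain ⟨M, hM, hs⟩ := ih _ h1
      have hn : n ∉ M := fun hm => by
        have := Finset.mem_range.mp (hM hm)
        omega
      refine ⟨insert n M, ?_, ?_⟩
      · intro i hi
        rcases Finset.mem_insert.mp hi with rfl | hi
        · exact Finset.mem_range.mpr (by omega)
        · have := Finset.mem_range.mp (hM hi)
          exact Finset.mem_range.mpr (by omega)
      · rw [Finset.sum_insert hn, hs]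
        omega

/-- The closing move: binary expansion of a small remainder. -/
theorem tail {Q : ℕ} (hQodd : Odd Q) (hQ1 : 1 < Q) {T : Finset ℕ} {W E w : ℕ} {target : ℚ}
    (hT2 : ∀ n ∈ T, 2 ≤ n)
    (hsum : ∑ n ∈ T, (1 : ℚ) / (n : ℚ) + (W : ℚ) / (2 ^ E * (Q : ℚ)) = target)
    (hW : W < 2 ^ w) (hE : 2 * T.card + 2 + w ≤ E) :
    ∃ S : Finset ℕ, (∀ n ∈ S, 2 ≤ n) ∧ ∑ n ∈ S, (1 : ℚ) / (n : ℚ) = target ∧
      S.card ≤ 3 * T.card + 2 + w := by
  classical
  obtain ⟨c, hc, hcT⟩ := exists_tau T Q hQodd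
  set τ := 2 * c + 1 with hτ
  have hQ0 : 0 < Q := by omega
  have hτ0 : 0 < τ := by omega
  have hbound : τ * W < 2 ^ (2 * T.card + 2 + w) := by
    have h1 : 2 * T.card + 2 < 2 ^ (2 * T.card + 2) := Nat.lt_two_pow_self
    rw [pow_add]
    calc τ * W < (2 * T.card + 2) * 2 ^ w := by
          apply Nat.mul_lt_mul_of_le_of_lt (by omega) hW (by omega)
      _ ≤ 2 ^ (2 * T.card + 2) * 2 ^ w := Nat.mul_le_mul_right _ h1.le
  obtain ⟨M, hM, hMs⟩ := exists_bits _ _ hbound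
  have hMlt : ∀ i ∈ M, i < E := fun i hi => by
    have := Finset.mem_range.mp (hM hi)
    omega
  set term : ℕ → ℕ := fun i => 2 ^ (E - i) * (τ * Q) with hterm
  have hinj : Set.InjOn term (M : Set ℕ) := by
    intro i hi i' hi' h
    have hi1 := hMlt i hi
    have hi2 := hMlt i' hi'
    have h1 : 2 ^ (E - i) * (τ * Q) = 2 ^ (E - i') * (τ * Q) := h
    have h2 := Nat.eq_of_mul_eq_mul_right (Nat.mul_pos hτ0 hQ0) h1
    have h3 := Nat.pow_right_injective (le_refl 2) h2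
    omega
  have hdisj : Disjoint T (M.image term) := by
    rw [Finset.disjoint_left]
    intro n hn hn2
    obtain ⟨i, _, rfl⟩ := Finset.mem_image.mp hn2
    exact hcT (E - i) _ hn rfl
  refine ⟨T ∪ M.image term, ?_, ?_, ?_⟩
  · intro n hn
    rcases Finset.mem_union.mp hn with hn | hn
    · exact hT2 n hn
    · obtain ⟨i, _, rfl⟩ := Finset.mem_image.mp hn
      have h1 : Q ≤ term i := by
        simp only [hterm]
        have : 1 * (1 * Q) ≤ 2 ^ (E - i) * (τ * Q) :=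
          Nat.mul_le_mul Nat.one_le_two_pow (Nat.mul_le_mul_right _ hτ0)
        omega
      omega
  · rw [Finset.sum_union hdisj, Finset.sum_image hinj, ← hsum]
    congr 1
    have hQq : (Q : ℚ) ≠ 0 := by positivity
    have hτq : (τ : ℚ) ≠ 0 := by positivity
    have h2E : (2 : ℚ) ^ E ≠ 0 := by positivity
    have h1 : ∀ i ∈ M, (1 : ℚ) / (term i : ℚ) = (2 : ℚ) ^ i / (τ * (2 ^ E * Q)) := by
      intro i hi
      have hi1 := (hMlt i hi).le
      have h3 : (2 : ℚ) ^ E = 2 ^ i * 2 ^ (E - i) := by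
        rw [← pow_add, Nat.add_sub_cancel' hi1]
      simp only [hterm]
      push_cast
      rw [h3]
      have : (2 : ℚ) ^ i ≠ 0 := by positivity
      have : (2 : ℚ) ^ (E - i) ≠ 0 := by positivity
      field_simp
    rw [Finset.sum_congr rfl h1, ← Finset.sum_div]
    have h2 : ∑ i ∈ M, (2 : ℚ) ^ i = (τ : ℚ) * W := by
      exact_mod_cast hMs
    rw [h2]
    field_simp
  · have h1 : (T ∪ M.image term).card ≤ T.card + (M.image term).card := Finset.card_union_le _ _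
    have h2 : (M.image term).card ≤ M.card := Finset.card_image_le
    have h3 : M.card ≤ (Finset.range (2 * T.card + 2 + w)).card := Finset.card_le_card hM
    rw [Finset.card_range] at h3
    omega

/-- The first move of the algorithm: powers of two until the remainder is small. -/
theorem head {P₀ P₁ L₀ L F₀ B : ℕ} (par : AlgPar P₀ P₁ L₀ L F₀ B) {T : Finset ℕ} {W E : ℕ}
    {target : ℚ} (m : ℕ) (hT2 : ∀ n ∈ T, 2 ≤ n)
    (hclass : ∀ n ∈ T, n = F₀ ∨ (¬ Nat.Coprime n (P₀ * P₁) ∧ ¬ P₀ ∣ n ∧ ¬ 2 ^ E ∣ n))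
    (hsum : ∑ n ∈ T, (1 : ℚ) / (n : ℚ) + (W : ℚ) / (2 ^ E * ((P₀ * P₁ : ℕ) : ℚ)) = target)
    (hW : W < 2 ^ E * (P₀ * P₁)) (hB : B ≤ E) :
    ∃ (T₁ : Finset ℕ) (W₁ : ℕ), SI P₀ P₁ F₀ B target T₁ W₁ (E + m) 0 m ∧ T₁.card ≤ T.card + m := by
  classical
  have hP₀ : 0 < P₀ := by have := par.one₀; omega
  have hP₁ : 0 < P₁ := by have := par.one₁; omega
  set D := 2 ^ E * (P₀ * P₁) with hD
  have hD0 : 0 < D := lt_of_le_of_lt (Nat.zero_le _) hW
  set Y := W * 2 ^ m / D with hY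
  set R := W * 2 ^ m % D with hR
  have hdiv : D * Y + R = W * 2 ^ m := Nat.div_add_mod _ _
  have hRD : R < D := Nat.mod_lt _ hD0
  have hYm : Y < 2 ^ m := by
    rw [hY, Nat.div_lt_iff_lt_mul hD0]
    calc W * 2 ^ m < D * 2 ^ m := Nat.mul_lt_mul_of_pos_right hW (Nat.two_pow_pos m)
      _ = 2 ^ m * D := mul_comm _ _
  obtain ⟨M, hM, hMs⟩ := exists_bits _ _ hYm
  have hMlt : ∀ i ∈ M, i < m := fun i hi => Finset.mem_range.mp (hM hi)
  set term : ℕ → ℕ := fun i => 2 ^ (m - i) with hterm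
  have hinj : Set.InjOn term (M : Set ℕ) := by
    intro i hi i' hi' h
    have hi1 := hMlt i hi
    have hi2 := hMlt i' hi'
    have h3 := Nat.pow_right_injective (le_refl 2) h
    omega
  have hcop : ∀ i, Nat.Coprime (term i) (P₀ * P₁) := fun i =>
    Nat.Coprime.pow_left _ (coprime_two_prod par.odd₀ par.odd₁)
  have hne : ∀ i, term i ≠ F₀ := fun i => by
    have h1 : 2 ^ (m - i) * 1 ≠ F₀ :=
      par.hF1 (m - i) 1 (by norm_num) (Nat.one_lt_two_pow (by omega))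
    rw [mul_one] at h1
    exact h1
  have hdisj : Disjoint T (M.image term) := by
    rw [Finset.disjoint_left]
    intro n hn hn2
    obtain ⟨i, _, rfl⟩ := Finset.mem_image.mp hn2
    rcases hclass _ hn with h | ⟨h, _⟩
    · exact hne i h
    · exact h (hcop i)
  refine ⟨T ∪ M.image term, R, ⟨?_, ?_, ?_, by omega, ?_⟩, ?_⟩
  · intro n hn
    rcases Finset.mem_union.mp hn with hn | hn
    · exact hT2 n hn
    · obtain ⟨i, hi, rfl⟩ := Finset.mem_image.mp hn
      have hi1 := hMlt i hi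
      calc 2 = 2 ^ 1 := by norm_num
        _ ≤ 2 ^ (m - i) := Nat.pow_le_pow_right (by norm_num) (by omega)
  · intro n hn
    rcases Finset.mem_union.mp hn with hn | hn
    · rcases hclass n hn with h | ⟨h1, h2, h3⟩
      · exact Or.inl h
      · refine Or.inr (Or.inr ⟨h1, h2, fun hd => h3 ((pow_dvd_pow 2 (by omega)).trans hd)⟩)
    · obtain ⟨i, _, rfl⟩ := Finset.mem_image.mp hn
      exact Or.inr (Or.inl ⟨hcop i, Or.inr ⟨m - i, rfl⟩⟩)
  · rw [Finset.sum_union hdisj, Finset.sum_image hinj, ← hsum, add_assoc]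
    congr 1
    have h2m : (2 : ℚ) ^ m ≠ 0 := by positivity
    have hDq : ((D : ℕ) : ℚ) ≠ 0 := by exact_mod_cast hD0.ne'
    have hDeq : ((D : ℕ) : ℚ) = 2 ^ E * ((P₀ * P₁ : ℕ) : ℚ) := by
      rw [hD]; push_cast; ring
    have h1 : ∀ i ∈ M, (1 : ℚ) / (term i : ℚ) = (2 : ℚ) ^ i / 2 ^ m := by
      intro i hi
      have hi1 := (hMlt i hi).le
      have h3 : (2 : ℚ) ^ m = 2 ^ i * 2 ^ (m - i) := by
        rw [← pow_add, Nat.add_sub_cancel' hi1]
      simp only [hterm]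
      push_cast
      rw [h3]
      have : (2 : ℚ) ^ i ≠ 0 := by positivity
      have : (2 : ℚ) ^ (m - i) ≠ 0 := by positivity
      field_simp
    rw [Finset.sum_congr rfl h1, ← Finset.sum_div]
    have h2 : ∑ i ∈ M, (2 : ℚ) ^ i = (Y : ℚ) := by
      exact_mod_cast hMs
    rw [h2]
    have h3 : (D : ℚ) * Y + R = W * 2 ^ m := by exact_mod_cast hdiv
    have h4 : (2 : ℚ) ^ (E + m) * ((P₀ * P₁ : ℕ) : ℚ) = 2 ^ m * (D : ℚ) := by
      rw [hDeq, pow_add]; ring
    rw [h4, ← hDeq]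
    field_simp
    linear_combination h3
  · calc 2 ^ m * R ≤ 2 ^ m * D := Nat.mul_le_mul_left _ hRD.le
      _ = 2 ^ (E + m) * (P₀ * P₁) := by rw [hD, pow_add]; ring
  · have h1 : (T ∪ M.image term).card ≤ T.card + (M.image term).card := Finset.card_union_le _ _
    have h2 : (M.image term).card ≤ M.card := Finset.card_image_le
    have h3 : M.card ≤ (Finset.range m).card := Finset.card_le_card hM
    rw [Finset.card_range] at h3
    omega

/-- The rational identity of the opening step. -/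
lemma identityF {P₀ P₁ q E W p a b : ℕ} (e g : Fin 17 → ℕ) (hP₀ : 0 < P₀) (hP₁ : 0 < P₁)
    (hq0 : 0 < q) (hb0 : 0 < b)
    (hg : ∀ j, P₀ = e j * g j)
    (hEq : q * W + ∑ j, e j = p * (2 ^ E * (P₀ * P₁))) (hab : a * q = b * p + 1) :
    (1 : ℚ) / ((b * q : ℕ) : ℚ) + ∑ j, (1 : ℚ) / ((q * 2 ^ E * (g j * P₁) : ℕ) : ℚ)
      + (W : ℚ) / (2 ^ E * ((P₀ * P₁ : ℕ) : ℚ))
      = (a : ℚ) / (b : ℚ) := by
  have hP₀q : (P₀ : ℚ) ≠ 0 := by positivity
  have hP₁q : (P₁ : ℚ) ≠ 0 := by positivity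
  have hqq : (q : ℚ) ≠ 0 := by positivity
  have hbq : (b : ℚ) ≠ 0 := by positivity
  have h2E : ((2 : ℚ) ^ E) ≠ 0 := by positivity
  have hterm : ∀ j, (1 : ℚ) / ((q * 2 ^ E * (g j * P₁) : ℕ) : ℚ)
      = (e j : ℚ) / (q * (2 ^ E * (P₀ * P₁))) := by
    intro j
    have hgj : (g j : ℚ) ≠ 0 := by
      have : g j ≠ 0 := by
        intro h
        have := hg j
        rw [h, mul_zero] at this
        omega
      exact_mod_cast this
    have hej : (e j : ℚ) ≠ 0 := by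
      have : e j ≠ 0 := by
        intro h
        have := hg j
        rw [h, zero_mul] at this
        omega
      exact_mod_cast this
    have hP : (P₀ : ℚ) = e j * g j := by exact_mod_cast hg j
    push_cast
    rw [hP]
    field_simp
  simp_rw [hterm]
  rw [← Finset.sum_div]
  have hEqQ : (q : ℚ) * W + ∑ j, (e j : ℚ) = p * (2 ^ E * (P₀ * P₁)) := by
    exact_mod_cast hEq
  have habQ : (a : ℚ) * q = b * p + 1 := by exact_mod_cast hab
  have hS : ∑ j, (e j : ℚ) = p * (2 ^ E * (P₀ * P₁)) - q * W := by linarith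
  push_cast
  rw [hS]
  field_simp
  linear_combination (-((P₀ : ℚ) * P₁ * 2 ^ E)) * habQ

/-- The opening step. -/
theorem farey {P₀ P₁ L₀ : ℕ} (hC : CoverProp P₀ P₁ L₀) (h₀ : Odd P₀) (h₁ : Odd P₁)
    (one₀ : 1 < P₀) (one₁ : 1 < P₁) (hcopP : Nat.Coprime P₀ P₁) (hL₀ : 2 ^ 1036 ≤ L₀)
    (a b E₀ : ℕ) (ha : 1 ≤ a) (hab : a < b) (hcop : Nat.Coprime a b)
    (hbL : b ≤ 2 ^ (L₀ / 21)) (hE₀ : 2 * L₀ ≤ E₀) :
    ∃ (q₀ : ℕ) (T₀ : Finset ℕ) (W₀ : ℕ), 2 ^ L₀ ≤ q₀ ∧ Odd q₀ ∧ b * q₀ < 2 ^ (2 * L₀) ∧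
      (∀ n ∈ T₀, 2 ≤ n) ∧
      (∀ n ∈ T₀, n = b * q₀ ∨ (¬ Nat.Coprime n (P₀ * P₁) ∧ ¬ P₀ ∣ n ∧ ¬ 2 ^ (E₀ + 1) ∣ n)) ∧
      ∑ n ∈ T₀, (1 : ℚ) / (n : ℚ) + (W₀ : ℚ) / (2 ^ E₀ * ((P₀ * P₁ : ℕ) : ℚ)) = (a : ℚ) / (b : ℚ) ∧
      W₀ < 2 ^ E₀ * (P₀ * P₁) ∧ T₀.card ≤ 18 := by
  classical
  have hl5 : 100000 ≤ L₀ := le_trans (by norm_num) hL₀
  have hP₀ : 0 < P₀ := by omega
  have hP₁ : 0 < P₁ := by omega
  set l := L₀ with hl
  set z := l / 40 with hz
  set M := l - 2 * (l / 20) with hM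
  set R := ∏ p ∈ (Nat.primesLE z).filter (fun p => ¬ p ∣ b), p with hR
  have hb0 : 0 < b := by omega
  have hb1 : 1 < b := by omega
  have hRprime : ∀ p ∈ (Nat.primesLE z).filter (fun p => ¬ p ∣ b), p.Prime ∧ ¬ p ∣ b := by
    intro p hp
    obtain ⟨h1, h2⟩ := Finset.mem_filter.mp hp
    exact ⟨Nat.prime_of_mem_primesLE h1, h2⟩
  have hRpos : 0 < R := Finset.prod_pos fun p hp => (hRprime p hp).1.pos
  have hbR : Nat.Coprime b R := by
    apply Nat.Coprime.prod_right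
    intro p hp
    obtain ⟨h1, h2⟩ := hRprime p hp
    exact ((Nat.Prime.coprime_iff_not_dvd h1).mpr h2).symm
  have hRle : R ≤ primorial z := by
    apply Nat.le_of_dvd (primorial_pos z)
    rw [primorial_eq_prod_primesLE]
    exact Finset.prod_dvd_prod_of_subset _ _ _ (Finset.filter_subset _ _)
  have hRN : R * 2 ^ M ≤ 2 ^ (l - l / 20) :=
    (Nat.mul_le_mul_right _ hRle).trans (primorial_mul_le l hl5)
  set d := b * R with hd
  have hd0 : 0 < d := Nat.mul_pos hb0 hRpos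
  have hdN : 2 * (d * 2 ^ M) ≤ 2 ^ l := by
    calc 2 * (d * 2 ^ M) = 2 * (b * (R * 2 ^ M)) := by rw [hd]; ring
      _ ≤ 2 * (2 ^ (l / 21) * 2 ^ (l - l / 20)) :=
        Nat.mul_le_mul_left _ (Nat.mul_le_mul hbL hRN)
      _ = 2 ^ (l / 21 + (l - l / 20) + 1) := by rw [pow_succ, pow_add]; ring
      _ ≤ 2 ^ l := Nat.pow_le_pow_right (by norm_num) (by omega)
  obtain ⟨m, _, hm⟩ := Nat.exists_mul_mod_eq_one_of_coprime hcop hb1
  have hmcop : Nat.Coprime m b := by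
    have h1 : Nat.gcd m b ∣ a * m := (Nat.gcd_dvd_left _ _).trans (dvd_mul_left _ _)
    have h2 : Nat.gcd m b ∣ b := Nat.gcd_dvd_right _ _
    have h3 : Nat.gcd m b ∣ a * m % b := (Nat.dvd_mod_iff h2).mpr h1
    rw [hm] at h3
    exact Nat.dvd_one.mp h3
  obtain ⟨x, hx1, hx2⟩ := Nat.chineseRemainder hbR m 1
  set A := 2 ^ l / d + 1 with hA
  have hA1 : 2 ^ l < d * A := Nat.lt_mul_div_succ _ hd0
  have hA2 : d * A ≤ 2 ^ l + d := by
    have := Nat.mul_div_le (2 ^ l) d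
    rw [hA, mul_add, mul_one]
    omega
  set c := x % d + d * A with hc
  have hxd : x % d < d := Nat.mod_lt _ hd0
  have hcmod : ∀ s, c + d * s ≡ x [MOD d] := by
    intro s
    have h1 : c + d * s = x % d + d * (A + s) := by rw [hc]; ring
    rw [h1]
    unfold Nat.ModEq
    rw [Nat.add_mul_mod_self_left, Nat.mod_mod]
  have hmodb : ∀ s, c + d * s ≡ m [MOD b] := fun s =>
    (Nat.ModEq.of_mul_right R (hcmod s)).trans hx1
  have hmodR : ∀ s, c + d * s ≡ 1 [MOD R] := fun s =>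
    (Nat.ModEq.of_mul_left b (hcmod s)).trans hx2
  have hcopd : ∀ s < 2 ^ M, Nat.Coprime (c + d * s) d := by
    intro s _
    apply Nat.Coprime.mul_right
    · unfold Nat.Coprime
      rw [(hmodb s).gcd_eq]
      exact hmcop
    · unfold Nat.Coprime
      rw [(hmodR s).gcd_eq]
      exact Nat.gcd_one_left R
  have hlow : ∀ s, 2 ^ l ≤ c + d * s := by
    intro s
    have : 0 ≤ d * s := Nat.zero_le _
    rw [hc]
    omega
  have hup : ∀ s < 2 ^ M, c + d * s ≤ 2 ^ (l + 1) := by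
    intro s hs
    have h1 : d * (s + 1) ≤ d * 2 ^ M := Nat.mul_le_mul_left _ hs
    rw [mul_add, mul_one] at h1
    have h2 : 2 ^ (l + 1) = 2 * 2 ^ l := by rw [pow_succ]; ring
    have h3 : 1 * d ≤ 2 ^ M * d := Nat.mul_le_mul_right _ Nat.one_le_two_pow
    have h4 : 2 ^ M * d = d * 2 ^ M := mul_comm _ _
    rw [hc]
    omega
  have h2pow : ∀ k : ℕ, 0 < 2 ^ k := fun k => Nat.two_pow_pos k
  have hz2 : 2 ≤ z := by omega
  obtain ⟨s, hs, hqcop, h0, _⟩ := hC l c d (2 ^ M) hL₀ le_rfl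
    (by
      intro p hp hpl
      by_cases hpb : p ∣ b
      · exact Dvd.dvd.mul_right hpb R
      · apply Dvd.dvd.mul_left
        apply Finset.dvd_prod_of_mem (fun p => p)
        exact Finset.mem_filter.mpr ⟨Nat.mem_primesLE.mpr ⟨hpl, hp⟩, hpb⟩)
    le_rfl hcopd
    (fun s _ => lt_of_lt_of_le (h2pow l) (hlow s))
    (fun s hs => (hup s hs).trans_lt (Nat.pow_lt_pow_right (by norm_num) (by omega)))
  set q := c + d * s with hq
  have hq1 : 2 ^ l ≤ q := hlow s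
  have hq2 : q ≤ 2 ^ (l + 1) := hup s hs
  have hq0 : 0 < q := lt_of_lt_of_le (h2pow l) hq1
  have h2d : 2 ∣ d := by
    by_cases hpb : 2 ∣ b
    · exact Dvd.dvd.mul_right hpb R
    · apply Dvd.dvd.mul_left
      apply Finset.dvd_prod_of_mem (fun p => p)
      exact Finset.mem_filter.mpr ⟨Nat.mem_primesLE.mpr ⟨hz2, Nat.prime_two⟩, hpb⟩
  have hqodd : Odd q := by
    have := (hcopd s hs).coprime_dvd_right h2d
    exact Nat.Coprime.odd_of_right this
  have hbq : b * q < 2 ^ (2 * l) := by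
    calc b * q ≤ 2 ^ (l / 21) * 2 ^ (l + 1) := Nat.mul_le_mul hbL hq2
      _ = 2 ^ (l / 21 + (l + 1)) := (pow_add 2 _ _).symm
      _ < 2 ^ (2 * l) := Nat.pow_lt_pow_right (by norm_num) (by omega)
  have haq : a * q ≡ 1 [MOD b] := by
    have h1 : a * q ≡ a * m [MOD b] := (hmodb s).mul_left a
    refine h1.trans ?_
    unfold Nat.ModEq
    rw [hm, Nat.mod_eq_of_lt hb1]
  set p := a * q / b with hp
  have hpeq : a * q = b * p + 1 := by
    have h1 := Nat.div_add_mod (a * q) b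
    have h2 : a * q % b = 1 := by
      have := haq
      unfold Nat.ModEq at this
      rw [this, Nat.mod_eq_of_lt hb1]
    rw [h2] at h1
    exact h1.symm
  have hb_le_q : b ≤ q := by
    have : 2 ^ (l / 21) ≤ 2 ^ l := Nat.pow_le_pow_right (by norm_num) (by omega)
    omega
  have hp0 : 0 < p := by
    have h1 : 1 * q ≤ a * q := Nat.mul_le_mul_right _ ha
    rcases Nat.eq_zero_or_pos p with h2 | h2
    swap
    · exact h2
    exfalso
    rw [h2] at hpeq
    simp only [mul_zero, zero_add] at hpeq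
    have : 2 ≤ q := by
      have : 2 ^ 1 ≤ 2 ^ l := Nat.pow_le_pow_right (by norm_num) (by omega)
      omega
    omega
  have hpq : p < q := by
    have h1 : a * q < b * q := Nat.mul_lt_mul_of_pos_right hab hq0
    have h2 : b * p < b * q := by
      rw [hpeq] at h1
      omega
    exact Nat.lt_of_mul_lt_mul_left h2
  set D := 2 ^ E₀ * (P₀ * P₁) with hD
  have hPP : 0 < P₀ * P₁ := Nat.mul_pos hP₀ hP₁
  have hD0 : 0 < D := Nat.mul_pos (h2pow _) hPP
  obtain ⟨e, he1, he2, he3⟩ := h0 (p * D)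
  have hsum : ∑ j, e j ≤ 17 * P₀ := sum_e_le hP₀ e (fun j => (he2 j).1)
  have hsum2 : ∑ j, e j ≤ p * D := by
    have h1 : 17 ≤ 2 ^ E₀ := by
      calc 17 ≤ 2 ^ 5 := by norm_num
        _ ≤ 2 ^ E₀ := Nat.pow_le_pow_right (by norm_num) (by omega)
    have h2 : 17 * P₀ ≤ 2 ^ E₀ * (P₀ * P₁) :=
      Nat.mul_le_mul h1 (Nat.le_mul_of_pos_right _ hP₁)
    have h3 : 1 * D ≤ p * D := Nat.mul_le_mul_right _ hp0
    omega
  obtain ⟨W₀, hW₀⟩ := (Nat.modEq_iff_dvd' hsum2).mp he3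
  set g : Fin 17 → ℕ := fun j => P₀ / e j with hg
  have hgP : ∀ j, P₀ = e j * g j := fun j => (Nat.mul_div_cancel' (he2 j).1).symm
  have hg0 : ∀ j, 0 < g j := by
    intro j
    rcases Nat.eq_zero_or_pos (g j) with h | h
    · have := hgP j
      rw [h, mul_zero] at this
      omega
    · exact h
  set w : Fin 17 → ℕ := fun j => q * 2 ^ E₀ * (g j * P₁) with hw
  have hwp := fun j => w_props (E := E₀) h₀ h₁ one₁ hcopP hqcop hqodd (hgP j) (he2 j).2
  have hwinj : Function.Injective w := by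
    intro i j hij
    have h1 : q * 2 ^ E₀ * (g i * P₁) = q * 2 ^ E₀ * (g j * P₁) := hij
    have h2 : g i * P₁ = g j * P₁ :=
      Nat.eq_of_mul_eq_mul_left (Nat.mul_pos hq0 (h2pow _)) h1
    have h3 : g i = g j := Nat.eq_of_mul_eq_mul_right hP₁ h2
    have h4 : e i * g i = e j * g i := by
      rw [← hgP i]
      rw [h3, ← hgP j]
    exact he1 (Nat.eq_of_mul_eq_mul_right (hg0 i) h4)
  set Tw := (Finset.univ : Finset (Fin 17)).image w with hTw
  have hFw : b * q ∉ Tw := by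
    intro h
    obtain ⟨j, _, hj⟩ := Finset.mem_image.mp h
    have h1 : 2 ^ E₀ ≤ w j := (hwp j).2.2.2.2.2
    have h2 : 2 ^ (2 * l) ≤ 2 ^ E₀ := Nat.pow_le_pow_right (by norm_num) hE₀
    omega
  refine ⟨q, insert (b * q) Tw, W₀, hq1, hqodd, hbq, ?_, ?_, ?_, ?_, ?_⟩
  · intro n hn
    rcases Finset.mem_insert.mp hn with rfl | hn
    · have h1 : 2 ≤ q := by
        have : 2 ^ 1 ≤ 2 ^ l := Nat.pow_le_pow_right (by norm_num) (by omega)
        omega
      calc 2 ≤ q := h1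
        _ ≤ b * q := Nat.le_mul_of_pos_left _ hb0
    · obtain ⟨j, _, rfl⟩ := Finset.mem_image.mp hn
      exact (hwp j).2.2.2.2.1
  · intro n hn
    rcases Finset.mem_insert.mp hn with rfl | hn
    · exact Or.inl rfl
    · obtain ⟨j, _, rfl⟩ := Finset.mem_image.mp hn
      exact Or.inr ⟨(hwp j).2.2.1, (hwp j).2.2.2.1, (hwp j).2.1⟩
  · rw [Finset.sum_insert hFw, hTw, Finset.sum_image (fun x _ y _ h => hwinj h)]
    have hEq : q * W₀ + ∑ j, e j = p * (2 ^ E₀ * (P₀ * P₁)) := by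
      rw [← hD, ← hW₀]
      omega
    exact identityF e g hP₀ hP₁ hq0 hb0 hgP hEq hpeq
  · have h1 : q * W₀ ≤ p * D := by omega
    have h2 : p * D < q * D := Nat.mul_lt_mul_of_pos_right hpq hD0
    exact Nat.lt_of_mul_lt_mul_left (h1.trans_lt h2)
  · have h1 : (insert (b * q) Tw).card ≤ Tw.card + 1 := Finset.card_insert_le _ _
    have h3 : Tw.card ≤ (Finset.univ : Finset (Fin 17)).card := Finset.card_image_le
    simp only [Finset.card_univ, Fintype.card_fin] at h3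
    omega

end Crest.Agent.Egy
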