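import Mathlib.Analysis.SpecialFunctions.Complex.CircleAddChar
import Mathlib.Analysis.Complex.Basic
import Mathlib.Algebra.BigOperators.Pi
import Mathlib.Algebra.Order.BigOperators.Ring.Finset
import Mathlib.Algebra.Order.Chebyshev

/-!
# Additive characters on `ZMod t`: bilinear bound and covering by Fourier inversion
-/

set_option autoImplicit false

namespace Crest.Agent.Egy

open Finset

/-- number of ordered pairs in `A` congruent modulo `t`. -/
def collCount (A : Finset ℕ) (t : ℕ) : ℕ :=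
  ((A ×ˢ A).filter (fun p => (p.1 : ZMod t) = (p.2 : ZMod t))).card

section char
variable (t : ℕ) [NeZero t]

local notation "ψ" => (ZMod.stdAddChar (N := t))

lemma conj_psi (x : ZMod t) : (starRingEnd ℂ) (ψ x) = ψ (-x) := by
  rw [AddChar.map_neg_eq_conj]

/-- Parseval-type identity for the sums `∑_{b∈B} ψ(c y b)` in the variable `y`. -/
lemma parseval (c : ZMod t) (hc : IsUnit c) (B : Finset ℕ) :
    ∑ y : ZMod t, ‖∑ b ∈ B, (ψ (c * y * b) : ℂ)‖ ^ 2 = (t : ℝ) * collCount B t := by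
  have key : ((∑ y : ZMod t, ‖∑ b ∈ B, (ψ (c * y * b) : ℂ)‖ ^ 2 : ℝ) : ℂ)
      = (((t : ℝ) * collCount B t : ℝ) : ℂ) := by
    push_cast
    have h1 : ∀ y : ZMod t, ((‖∑ b ∈ B, (ψ (c * y * b) : ℂ)‖ : ℂ)) ^ 2
        = ∑ b ∈ B, ∑ b' ∈ B, (ψ (y * (c * ((b : ZMod t) - b'))) : ℂ) := by
      intro y
      rw [← Complex.mul_conj', map_sum, Finset.sum_mul_sum]
      refine Finset.sum_congr rfl fun b _ => Finset.sum_congr rfl fun b' _ => ?_
      rw [conj_psi, ← AddChar.map_add_eq_mul]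
      congr 1
      ring
    simp_rw [h1]
    rw [Finset.sum_comm]
    simp_rw [Finset.sum_comm (s := (Finset.univ : Finset (ZMod t)))]
    simp_rw [AddChar.sum_mulShift _ (ZMod.isPrimitive_stdAddChar t)]
    have h2 : ∀ b b' : ℕ, (c * ((b : ZMod t) - b') = 0) ↔ ((b : ZMod t) = b') := by
      intro b b'
      constructor
      · intro h
        have := hc.mul_right_eq_zero.mp h
        exact sub_eq_zero.mp this
      · intro h; rw [h]; simp
    simp_rw [h2]
    simp only [ZMod.card]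
    unfold collCount
    rw [Finset.card_filter, Finset.sum_product]
    push_cast
    rw [Finset.mul_sum]
    refine Finset.sum_congr rfl fun b _ => ?_
    rw [Finset.mul_sum]
    refine Finset.sum_congr rfl fun b' _ => ?_
    split_ifs <;> simp
  exact_mod_cast key

/-- The bilinear bound. -/
theorem bilinear_bound (c : ZMod t) (hc : IsUnit c) (A B : Finset ℕ) :
    ‖∑ a ∈ A, ∑ b ∈ B, (ψ (c * a * b) : ℂ)‖ ^ 2 ≤ (t : ℝ) * collCount A t * collCount B t := by
  classical
  set h : ZMod t → ℂ := fun y => ∑ b ∈ B, (ψ (c * y * b) : ℂ) with hh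
  set f : ZMod t → ℝ := fun y => ((A.filter (fun a : ℕ => (a : ZMod t) = y)).card : ℝ) with hf
  have h1 : ∑ a ∈ A, ∑ b ∈ B, (ψ (c * a * b) : ℂ)
      = ∑ y : ZMod t, ((A.filter (fun a : ℕ => (a : ZMod t) = y)).card : ℂ) * h y := by
    rw [← Finset.sum_fiberwise A (fun a => (a : ZMod t))]
    refine Finset.sum_congr rfl fun y _ => ?_
    rw [← nsmul_eq_mul, ← Finset.sum_const]
    refine Finset.sum_congr rfl fun a ha => ?_
    rw [(Finset.mem_filter.mp ha).2]
  have h2 : ‖∑ y : ZMod t, ((A.filter (fun a : ℕ => (a : ZMod t) = y)).card : ℂ) * h y‖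
      ≤ ∑ y : ZMod t, f y * ‖h y‖ := by
    refine (norm_sum_le _ _).trans (le_of_eq ?_)
    refine Finset.sum_congr rfl fun y _ => ?_
    rw [norm_mul, Complex.norm_natCast]
  have h3 : ∑ y : ZMod t, f y ^ 2 = (collCount A t : ℝ) := by
    unfold collCount
    have : ((A ×ˢ A).filter (fun p => (p.1 : ZMod t) = (p.2 : ZMod t))).card
        = ∑ y : ZMod t, (A.filter (fun a : ℕ => (a : ZMod t) = y)).card ^ 2 := by
      rw [Finset.card_eq_sum_card_fiberwise
        (f := fun p : ℕ × ℕ => (p.1 : ZMod t)) (t := Finset.univ) (by simp)]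
      refine Finset.sum_congr rfl fun y _ => ?_
      rw [sq, ← Finset.card_product]
      congr 1
      ext ⟨a, a'⟩
      simp only [Finset.mem_filter, Finset.mem_product]
      constructor
      · rintro ⟨⟨⟨h1, h2⟩, h3⟩, h4⟩
        exact ⟨⟨h1, h4⟩, h2, h3 ▸ h4⟩
      · rintro ⟨⟨h1, h2⟩, h3, h4⟩
        exact ⟨⟨⟨h1, h3⟩, h2.trans h4.symm⟩, h2⟩
    rw [this]
    push_cast
    rfl
  have h4 : (∑ y : ZMod t, f y * ‖h y‖) ^ 2 ≤ (∑ y : ZMod t, f y ^ 2) * ∑ y : ZMod t, ‖h y‖ ^ 2 :=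
    Finset.sum_mul_sq_le_sq_mul_sq _ _ _
  have h5 : ∑ y : ZMod t, ‖h y‖ ^ 2 = (t : ℝ) * collCount B t := parseval t c hc B
  rw [h1]
  calc ‖∑ y : ZMod t, ((A.filter (fun a : ℕ => (a : ZMod t) = y)).card : ℂ) * h y‖ ^ 2
      ≤ (∑ y : ZMod t, f y * ‖h y‖) ^ 2 := by gcongr
    _ ≤ (∑ y : ZMod t, f y ^ 2) * ∑ y : ZMod t, ‖h y‖ ^ 2 := h4
    _ = _ := by rw [h3, h5]; ring

end char

lemma addChar_sum {ι G M : Type*} [AddCommMonoid G] [CommMonoid M] (χ : AddChar G M)
    (s : Finset ι) (f : ι → G) : χ (∑ i ∈ s, f i) = ∏ i ∈ s, χ (f i) := by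
  classical
  induction s using Finset.induction_on with
  | empty => simp
  | insert a s ha ih => rw [Finset.sum_insert ha, Finset.prod_insert ha, AddChar.map_add_eq_mul, ih]

/-- Fourier inversion: if all nontrivial character sums are small then all residues are sums. -/
theorem cover_of_bound {ι J : Type*} [Fintype J] [DecidableEq J] [DecidableEq ι]
    (q : ℕ) [NeZero q] (X : J → Finset ι) (e : ι → ℕ) (hne : ∀ j, (X j).Nonempty)
    (w : ZMod q → ℝ) (hw0 : ∀ x, 0 ≤ w x)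
    (hg : ∀ x : ZMod q, x ≠ 0 → ∀ j,
      ‖∑ ξ ∈ X j, (ZMod.stdAddChar (x * (e ξ : ZMod q)) : ℂ)‖ ≤ ((X j).card : ℝ) * w x)
    (hsum : ∑ x ∈ (Finset.univ : Finset (ZMod q)).erase 0, ∏ _j : J, w x < 1)
    (c : ZMod q) :
    ∃ f ∈ Fintype.piFinset X, ((∑ j, e (f j) : ℕ) : ZMod q) = c := by
  classical
  by_contra hcon
  push Not at hcon
  set ψ := ZMod.stdAddChar (N := q) with hψ
  set g : ZMod q → J → ℂ := fun x j => ∑ ξ ∈ X j, (ψ (x * (e ξ : ZMod q)) : ℂ) with hgdef
  have hzero : ∑ x : ZMod q, ψ (-(x * c)) * ∏ j, g x j = 0 := by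
    have h1 : ∀ x : ZMod q, ψ (-(x * c)) * ∏ j, g x j
        = ∑ f ∈ Fintype.piFinset X, ψ (x * (((∑ j, e (f j) : ℕ) : ZMod q) - c)) := by
      intro x
      simp only [hgdef]
      rw [Finset.prod_univ_sum, Finset.mul_sum]
      refine Finset.sum_congr rfl fun f _ => ?_
      rw [← addChar_sum, ← AddChar.map_add_eq_mul]
      congr 1
      push_cast
      rw [mul_sub, Finset.mul_sum]
      ring
    simp_rw [h1]
    rw [Finset.sum_comm]
    refine Finset.sum_eq_zero fun f hf => ?_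
    rw [AddChar.sum_mulShift _ (ZMod.isPrimitive_stdAddChar q), if_neg (sub_ne_zero.mpr (hcon f hf))]
    simp
  have hM : (0 : ℝ) < ∏ j, ((X j).card : ℝ) :=
    Finset.prod_pos fun j _ => by exact_mod_cast (hne j).card_pos
  have hx0 : ψ (-((0 : ZMod q) * c)) * ∏ j, g 0 j = ((∏ j, ((X j).card : ℝ) : ℝ) : ℂ) := by
    simp [hgdef]
  rw [← Finset.add_sum_erase _ _ (Finset.mem_univ (0 : ZMod q)), hx0] at hzero
  have hnorm : ∏ j, ((X j).card : ℝ)
      = ‖∑ x ∈ (Finset.univ : Finset (ZMod q)).erase 0, ψ (-(x * c)) * ∏ j, g x j‖ := by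
    rw [eq_neg_of_add_eq_zero_right hzero, norm_neg, Complex.norm_real,
      Real.norm_of_nonneg hM.le]
  have hbound : ‖∑ x ∈ (Finset.univ : Finset (ZMod q)).erase 0, ψ (-(x * c)) * ∏ j, g x j‖
      ≤ (∏ j, ((X j).card : ℝ)) * ∑ x ∈ (Finset.univ : Finset (ZMod q)).erase 0, ∏ _j : J, w x := by
    refine (norm_sum_le _ _).trans ?_
    rw [Finset.mul_sum]
    refine Finset.sum_le_sum fun x hx => ?_
    have hx' : x ≠ 0 := (Finset.mem_erase.mp hx).1
    rw [norm_mul, AddChar.norm_apply, one_mul, norm_prod, ← Finset.prod_mul_distrib]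
    exact Finset.prod_le_prod (fun j _ => norm_nonneg _) (fun j _ => hg x hx' j)
  rw [← hnorm] at hbound
  have := mul_lt_mul_of_pos_left hsum hM
  linarith

/-- Reduction of the modulus: if `q = g * t` and `x.val = g * v'`, then the character of `ZMod q`
at `x * n` equals the character of `ZMod t` at `v' * n`. -/
lemma stdAddChar_reduce (q t g v' : ℕ) [NeZero q] [NeZero t] (hq : q = g * t) (n : ℕ) (x : ZMod q)
    (hx : x.val = g * v') :
    (ZMod.stdAddChar (x * (n : ZMod q)) : ℂ)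
      = ZMod.stdAddChar (((v' : ℕ) : ZMod t) * (n : ZMod t)) := by
  have hg : (g : ℂ) ≠ 0 := by
    have : g ≠ 0 := by
      rintro rfl
      exact NeZero.ne q (by simpa using hq)
    exact_mod_cast this
  have ht : (t : ℂ) ≠ 0 := by exact_mod_cast NeZero.ne t
  have h1 : x * (n : ZMod q) = (((g * v' * n : ℕ) : ℤ) : ZMod q) := by
    have : x = ((x.val : ℕ) : ZMod q) := (ZMod.natCast_zmod_val x).symm
    rw [hx] at this
    conv_lhs => rw [this]
    push_cast
    ring
  have h2 : ((v' : ℕ) : ZMod t) * (n : ZMod t) = (((v' * n : ℕ) : ℤ) : ZMod t) := by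
    push_cast
    ring
  rw [h1, h2, ZMod.stdAddChar_coe, ZMod.stdAddChar_coe]
  congr 1
  rw [hq]
  push_cast
  field_simp

/-- Product sets indexed by lists: `prodSet A B n` consists of the lists
`[a_{n-1}, b_{n-1}, …, a_0, b_0]` with `a_i ∈ A i`, `b_i ∈ B i`. -/
def prodSet (A B : ℕ → Finset ℕ) : ℕ → Finset (List ℕ)
  | 0 => {[]}
  | n + 1 => ((A n ×ˢ B n) ×ˢ prodSet A B n).image (fun p => p.1.1 :: p.1.2 :: p.2)

lemma prodSet_inj :
    Function.Injective (fun p : (ℕ × ℕ) × List ℕ => p.1.1 :: p.1.2 :: p.2) := by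
  rintro ⟨⟨a, b⟩, l⟩ ⟨⟨a', b'⟩, l'⟩ h
  simp only [List.cons.injEq] at h
  obtain ⟨rfl, rfl, rfl⟩ := h
  rfl

lemma sum_prodSet_succ {M : Type*} [AddCommMonoid M] (A B : ℕ → Finset ℕ) (n : ℕ)
    (F : List ℕ → M) :
    ∑ l ∈ prodSet A B (n + 1), F l
      = ∑ a ∈ A n, ∑ b ∈ B n, ∑ l ∈ prodSet A B n, F (a :: b :: l) := by
  rw [prodSet, Finset.sum_image (fun x _ y _ h => prodSet_inj h), Finset.sum_product,
    Finset.sum_product]

lemma card_prodSet_succ (A B : ℕ → Finset ℕ) (n : ℕ) :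
    (prodSet A B (n + 1)).card = (A n).card * (B n).card * (prodSet A B n).card := by
  rw [prodSet, Finset.card_image_of_injective _ (prodSet_inj), Finset.card_product,
    Finset.card_product]

lemma mem_prodSet_succ (A B : ℕ → Finset ℕ) (n : ℕ) (l : List ℕ) :
    l ∈ prodSet A B (n + 1) ↔
      ∃ a ∈ A n, ∃ b ∈ B n, ∃ l' ∈ prodSet A B n, l = a :: b :: l' := by
  rw [prodSet, Finset.mem_image]
  constructor
  · rintro ⟨⟨⟨a, b⟩, l'⟩, hm, rfl⟩
    simp only [Finset.mem_product] at hm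
    exact ⟨a, hm.1.1, b, hm.1.2, l', hm.2, rfl⟩
  · rintro ⟨a, ha, b, hb, l', hl', rfl⟩
    exact ⟨⟨⟨a, b⟩, l'⟩, by simp [ha, hb, hl'], rfl⟩

lemma prodSet_nonempty (A B : ℕ → Finset ℕ) (hA : ∀ n, (A n).Nonempty) (hB : ∀ n, (B n).Nonempty)
    (n : ℕ) : (prodSet A B n).Nonempty := by
  induction n with
  | zero => exact ⟨[], by simp [prodSet]⟩
  | succ n ih =>
    obtain ⟨a, ha⟩ := hA n
    obtain ⟨b, hb⟩ := hB n
    obtain ⟨l, hl⟩ := ih
    exact ⟨a :: b :: l, (mem_prodSet_succ A B n _).mpr ⟨a, ha, b, hb, l, hl, rfl⟩⟩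

/-- the character sum over a product set inherits the saving from one layer. -/
theorem prodSet_bound (t : ℕ) [NeZero t] (A B : ℕ → Finset ℕ) (ρ : ℝ) (i : ℕ)
    (hbil : ∀ c : ZMod t, IsUnit c →
      ‖∑ a ∈ A i, ∑ b ∈ B i, (ZMod.stdAddChar (c * (a : ZMod t) * (b : ZMod t)) : ℂ)‖ ≤ ((A i).card * (B i).card : ℝ) * ρ)
    (n : ℕ) (hin : i < n)
    (hA : ∀ m < n, ∀ a ∈ A m, Nat.Coprime a t) (hB : ∀ m < n, ∀ b ∈ B m, Nat.Coprime b t) :
    ∀ c : ZMod t, IsUnit c →
      ‖∑ l ∈ prodSet A B n, (ZMod.stdAddChar (c * ((l.prod : ℕ) : ZMod t)) : ℂ)‖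
        ≤ ((prodSet A B n).card : ℝ) * ρ := by
  classical
  have hunit : ∀ m < n, ∀ l ∈ prodSet A B m, Nat.Coprime l.prod t := by
    intro m
    induction m with
    | zero =>
      intro _ l hl
      simp only [prodSet, Finset.mem_singleton] at hl
      subst hl
      simp
    | succ m ih =>
      intro hm l hl
      obtain ⟨a, ha, b, hb, l', hl', rfl⟩ := (mem_prodSet_succ A B m l).mp hl
      simp only [List.prod_cons]
      exact Nat.Coprime.mul_left (hA m (by omega) a ha)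
        (Nat.Coprime.mul_left (hB m (by omega) b hb) (ih (by omega) l' hl'))
  induction n, hin using Nat.le_induction with
  | base =>
    intro c hc
    rw [sum_prodSet_succ]
    have h1 : ∑ a ∈ A i, ∑ b ∈ B i, ∑ l ∈ prodSet A B i,
          (ZMod.stdAddChar (c * (((a :: b :: l).prod : ℕ) : ZMod t)) : ℂ)
        = ∑ l ∈ prodSet A B i, ∑ a ∈ A i, ∑ b ∈ B i,
          (ZMod.stdAddChar ((c * ((l.prod : ℕ) : ZMod t)) * (a : ZMod t) * (b : ZMod t)) : ℂ) := by
      refine (Finset.sum_congr rfl fun a _ => Finset.sum_comm).trans ?_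
      rw [Finset.sum_comm]
      refine Finset.sum_congr rfl fun l _ => Finset.sum_congr rfl fun a _ =>
        Finset.sum_congr rfl fun b _ => ?_
      congr 1
      simp only [List.prod_cons, Nat.cast_mul]
      ring
    rw [h1]
    refine (norm_sum_le _ _).trans ?_
    have h2 : ∀ l ∈ prodSet A B i,
        ‖∑ a ∈ A i, ∑ b ∈ B i, (ZMod.stdAddChar ((c * ((l.prod : ℕ) : ZMod t)) * (a : ZMod t) * (b : ZMod t)) : ℂ)‖
          ≤ ((A i).card * (B i).card : ℝ) * ρ := by
      intro l hl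
      refine hbil _ (hc.mul ?_)
      exact (ZMod.isUnit_iff_coprime _ _).mpr (hunit i (by omega) l hl)
    refine (Finset.sum_le_sum h2).trans (le_of_eq ?_)
    rw [Finset.sum_const, nsmul_eq_mul, card_prodSet_succ]
    push_cast
    ring
  | succ n hn ih =>
    intro c hc
    rw [sum_prodSet_succ]
    have ih' := ih (fun m hm => hA m (by omega)) (fun m hm => hB m (by omega))
      (fun m hm => hunit m (by omega))
    have h2 : ∀ a ∈ A n, ∀ b ∈ B n,
        ‖∑ l ∈ prodSet A B n, (ZMod.stdAddChar (c * (((a :: b :: l).prod : ℕ) : ZMod t)) : ℂ)‖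
          ≤ ((prodSet A B n).card : ℝ) * ρ := by
      intro a ha b hb
      have hu : IsUnit (c * (a : ZMod t) * (b : ZMod t)) := by
        refine (hc.mul ?_).mul ?_
        · exact (ZMod.isUnit_iff_coprime _ _).mpr (hA n (by omega) a ha)
        · exact (ZMod.isUnit_iff_coprime _ _).mpr (hB n (by omega) b hb)
      have := ih' _ hu
      have h_eq : ∑ l ∈ prodSet A B n,
            (ZMod.stdAddChar (c * (((a :: b :: l).prod : ℕ) : ZMod t)) : ℂ)
          = ∑ l ∈ prodSet A B n, (ZMod.stdAddChar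
              ((c * (a : ZMod t) * (b : ZMod t)) * ((l.prod : ℕ) : ZMod t)) : ℂ) := by
        refine Finset.sum_congr rfl fun l _ => ?_
        congr 1
        simp only [List.prod_cons, Nat.cast_mul]
        ring
      rw [h_eq]
      exact this
    have h3 : ‖∑ a ∈ A n, ∑ b ∈ B n, ∑ l ∈ prodSet A B n,
          (ZMod.stdAddChar (c * (((a :: b :: l).prod : ℕ) : ZMod t)) : ℂ)‖
        ≤ ∑ a ∈ A n, ∑ b ∈ B n, ((prodSet A B n).card : ℝ) * ρ := by
      refine (norm_sum_le _ _).trans (Finset.sum_le_sum fun a ha => ?_)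
      refine (norm_sum_le _ _).trans (Finset.sum_le_sum fun b hb => h2 a ha b hb)
    refine h3.trans (le_of_eq ?_)
    rw [Finset.sum_const, Finset.sum_const, card_prodSet_succ]
    simp only [nsmul_eq_mul]
    push_cast
    ring

end Crest.Agent.Egy
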