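import Crest.Agent.Lib.Egy.Pools
import Mathlib.Analysis.PSeries
import Mathlib.Analysis.SpecificLimits.Basic

/-!
# The key covering lemma
-/

set_option autoImplicit false
set_option exponentiation.threshold 3000

namespace Crest.Agent.Egy

open Finset

/-- the additive order of `x ∈ ZMod q`. -/
def ordZ (q : ℕ) (x : ZMod q) : ℕ := q / Nat.gcd x.val q

lemma ord_facts (q : ℕ) [NeZero q] (x : ZMod q) (hx : x ≠ 0) :
    q = Nat.gcd x.val q * ordZ q x ∧ x.val = Nat.gcd x.val q * (x.val / Nat.gcd x.val q) ∧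
      Nat.Coprime (x.val / Nat.gcd x.val q) (ordZ q x) ∧ 1 < ordZ q x ∧ ordZ q x ∣ q := by
  have hq : 0 < q := Nat.pos_of_ne_zero (NeZero.ne q)
  have hg : 0 < Nat.gcd x.val q := Nat.gcd_pos_of_pos_right _ hq
  have hv : x.val ≠ 0 := by
    intro h
    exact hx ((ZMod.val_eq_zero x).mp h)
  have hvq : x.val < q := ZMod.val_lt x
  have h1 : q = Nat.gcd x.val q * ordZ q x := (Nat.mul_div_cancel' (Nat.gcd_dvd_right _ _)).symm
  have h2 : x.val = Nat.gcd x.val q * (x.val / Nat.gcd x.val q) :=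
    (Nat.mul_div_cancel' (Nat.gcd_dvd_left _ _)).symm
  refine ⟨h1, h2, Nat.coprime_div_gcd_div_gcd hg, ?_, Dvd.intro_left _ h1.symm⟩
  by_contra hcon
  have h3 : ordZ q x ≤ 1 := by omega
  have h4 : Nat.gcd x.val q * ordZ q x ≤ Nat.gcd x.val q * 1 := Nat.mul_le_mul_left _ h3
  have h5 : Nat.gcd x.val q ≤ x.val := Nat.gcd_le_left _ (Nat.pos_of_ne_zero hv)
  omega

lemma card_fiber_ord_le (q t : ℕ) [NeZero q] :
    (((Finset.univ : Finset (ZMod q)).erase 0).filter (fun x => ordZ q x = t)).card ≤ t := by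
  classical
  have hq : 0 < q := Nat.pos_of_ne_zero (NeZero.ne q)
  have := Finset.card_le_card_of_injOn (s := ((Finset.univ : Finset (ZMod q)).erase 0).filter
    (fun x => ordZ q x = t)) (t := Finset.range t) (fun x => x.val / (q / t)) ?_ ?_
  · simpa using this
  · intro x hx
    obtain ⟨hx1, hx2⟩ := Finset.mem_filter.mp hx
    have hx0 : x ≠ 0 := (Finset.mem_erase.mp hx1).1
    obtain ⟨h1, h2, _, h3, _⟩ := ord_facts q x hx0
    rw [hx2] at h1 h3
    have hg : Nat.gcd x.val q = q / t := by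
      rw [Nat.eq_div_iff_mul_eq_left (by omega) ⟨_, h1.trans (mul_comm _ _)⟩]
      exact h1
    simp only [Finset.coe_range, Set.mem_Iio]
    rw [← hg]
    have hv := ZMod.val_lt x
    have hgpos : 0 < Nat.gcd x.val q := Nat.gcd_pos_of_pos_right _ hq
    rw [Nat.div_lt_iff_lt_mul hgpos]
    rw [mul_comm]
    omega
  · intro x hx y hy hxy
    obtain ⟨hx1, hx2⟩ := Finset.mem_filter.mp hx
    obtain ⟨hy1, hy2⟩ := Finset.mem_filter.mp hy
    have hx0 : x ≠ 0 := (Finset.mem_erase.mp hx1).1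
    have hy0 : y ≠ 0 := (Finset.mem_erase.mp hy1).1
    obtain ⟨h1, h2, _, h3, _⟩ := ord_facts q x hx0
    obtain ⟨h1', h2', _, h3', _⟩ := ord_facts q y hy0
    rw [hx2] at h1 h3
    rw [hy2] at h1' h3'
    have hg : Nat.gcd x.val q = q / t := by
      rw [Nat.eq_div_iff_mul_eq_left (by omega) ⟨_, h1.trans (mul_comm _ _)⟩]
      exact h1
    have hg' : Nat.gcd y.val q = q / t := by
      rw [Nat.eq_div_iff_mul_eq_left (by omega) ⟨_, h1'.trans (mul_comm _ _)⟩]
      exact h1'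
    simp only at hxy
    rw [hg] at h2
    rw [hg'] at h2'
    apply ZMod.val_injective
    rw [h2, h2']
    rw [hg] at *
    rw [hxy]

/-- Summing over all nonzero residues. -/
lemma sum_ord_le (q z : ℕ) [NeZero q] (hz : 1 ≤ z) (hrough : ∀ t, t ∣ q → 1 < t → z < t) :
    ∑ x ∈ (Finset.univ : Finset (ZMod q)).erase 0, (1 : ℝ) / (ordZ q x : ℝ) ^ 4 ≤ 1 / z := by
  classical
  have hq : 0 < q := Nat.pos_of_ne_zero (NeZero.ne q)
  by_cases hzq : z ≤ q
  · have hmaps : ∀ x ∈ (Finset.univ : Finset (ZMod q)).erase 0, ordZ q x ∈ Finset.Ioc z q := by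
      intro x hx
      have hx0 : x ≠ 0 := (Finset.mem_erase.mp hx).1
      obtain ⟨_, _, _, h3, h4⟩ := ord_facts q x hx0
      exact Finset.mem_Ioc.mpr ⟨hrough _ h4 h3, Nat.le_of_dvd hq h4⟩
    rw [← Finset.sum_fiberwise_of_maps_to hmaps]
    have h1 : ∀ t ∈ Finset.Ioc z q,
        ∑ x ∈ ((Finset.univ : Finset (ZMod q)).erase 0).filter (fun x => ordZ q x = t),
          (1 : ℝ) / (ordZ q x : ℝ) ^ 4 ≤ ((t : ℝ) ^ 2)⁻¹ := by
      intro t ht
      have ht0 : 0 < t := by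
        have := (Finset.mem_Ioc.mp ht).1
        omega
      have htr : (1 : ℝ) ≤ t := by exact_mod_cast ht0
      have h2 : ∑ x ∈ ((Finset.univ : Finset (ZMod q)).erase 0).filter (fun x => ordZ q x = t),
          (1 : ℝ) / (ordZ q x : ℝ) ^ 4
          = (((Finset.univ : Finset (ZMod q)).erase 0).filter (fun x => ordZ q x = t)).card
            * ((1 : ℝ) / (t : ℝ) ^ 4) := by
        rw [← nsmul_eq_mul, ← Finset.sum_const]
        refine Finset.sum_congr rfl fun x hx => ?_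
        rw [(Finset.mem_filter.mp hx).2]
      rw [h2]
      have h3 : ((((Finset.univ : Finset (ZMod q)).erase 0).filter
          (fun x => ordZ q x = t)).card : ℝ) ≤ t := by
        exact_mod_cast card_fiber_ord_le q t
      calc _ ≤ (t : ℝ) * ((1 : ℝ) / (t : ℝ) ^ 4) := by
            exact mul_le_mul_of_nonneg_right h3 (by positivity)
        _ ≤ ((t : ℝ) ^ 2)⁻¹ := by
            have h4 : (t : ℝ) * ((1 : ℝ) / (t : ℝ) ^ 4) = ((t : ℝ) ^ 3)⁻¹ := by
              field_simp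
            rw [h4]
            apply inv_anti₀ (by positivity)
            nlinarith [sq_nonneg (t : ℝ), sq_nonneg ((t : ℝ) - 1)]
    refine (Finset.sum_le_sum h1).trans ?_
    have h5 := sum_Ioc_inv_sq_le_sub (α := ℝ) (k := z) (n := q) (by omega) hzq
    have h6 : (0 : ℝ) ≤ (q : ℝ)⁻¹ := by positivity
    rw [one_div]
    linarith
  · have hempty : (Finset.univ : Finset (ZMod q)).erase 0 = ∅ := by
      rw [Finset.eq_empty_iff_forall_notMem]
      intro x hx
      have hx0 : x ≠ 0 := (Finset.mem_erase.mp hx).1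
      obtain ⟨_, _, _, h3, h4⟩ := ord_facts q x hx0
      have h5 := hrough _ h4 h3
      have h6 := Nat.le_of_dvd hq h4
      omega
    rw [hempty]
    simp

/-- the scale of a large modulus. -/
lemma exists_scale (t l : ℕ) (ht : 2 ^ 128 ≤ t) (hl : t < 2 ^ (l + 2)) :
    ∃ i, 2 ^ (2 ^ (i + 7)) ≤ t ∧ t < 2 ^ (2 ^ (i + 8)) ∧ 2 ^ (i + 7) < l + 2 := by
  have ht0 : t ≠ 0 := by
    intro h
    rw [h] at ht
    have : 0 < (2 : ℕ) ^ 128 := by positivity
    omega
  set y := Nat.log 2 t with hy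
  have h1 : 2 ^ y ≤ t := Nat.pow_log_le_self 2 ht0
  have h2 : t < 2 ^ (y + 1) := Nat.lt_pow_succ_log_self (by norm_num) t
  have hy128 : 128 ≤ y := Nat.le_log_of_pow_le (by norm_num) ht
  set a := Nat.log 2 y with ha
  have hy0 : y ≠ 0 := by omega
  have h3 : 2 ^ a ≤ y := Nat.pow_log_le_self 2 hy0
  have h4 : y < 2 ^ (a + 1) := Nat.lt_pow_succ_log_self (by norm_num) y
  have ha7 : 7 ≤ a := by
    apply Nat.le_log_of_pow_le (by norm_num)
    norm_num
    omega
  refine ⟨a - 7, ?_, ?_, ?_⟩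
  · rw [show a - 7 + 7 = a by omega]
    exact (Nat.pow_le_pow_right (by norm_num) h3).trans h1
  · rw [show a - 7 + 8 = a + 1 by omega]
    exact h2.trans_le (Nat.pow_le_pow_right (by norm_num) h4)
  · rw [show a - 7 + 7 = a by omega]
    have h5 : y < l + 2 := by
      by_contra hcon
      have : 2 ^ (l + 2) ≤ 2 ^ y := Nat.pow_le_pow_right (by norm_num) (by omega)
      omega
    omega

/-- the good-modulus predicate. -/
def GoodQ (q : ℕ) : Prop :=
  (∀ i, ∀ j < 34, ∀ b < 2, ∀ k ∈ idx i j b, ¬ pr k ∣ q) ∧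
  (∀ t, t ∣ q → 1 < t → ∀ i, 2 ^ (2 ^ (i + 7)) ≤ t → t < 2 ^ (2 ^ (i + 8)) →
    ∀ j < 34, ∀ b < 2, ¬ Bad (AA i j b) t)

/-- A good modulus is covered. -/
theorem cover_of_good (I l q z : ℕ) (hq0 : 0 < q) (hql : q < 2 ^ (l + 2))
    (hlI : l + 2 ≤ 2 ^ (I + 8)) (hz : 2 ^ 128 ≤ z)
    (hgood : GoodQ q) (hrough : ∀ t, t ∣ q → 1 < t → z < t) :
    Nat.Coprime q (PT 0 I * PT 1 I) ∧
    ∀ τ < 2, ∀ r : ℕ, ∃ e : Fin 17 → ℕ, Function.Injective e ∧
      (∀ j, e j ∣ PT τ I ∧ 1 < e j) ∧ (∑ j, e j) ≡ r [MOD q] := by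
  classical
  obtain ⟨hgood1, hgood2⟩ := hgood
  have : NeZero q := ⟨hq0.ne'⟩
  constructor
  · have h : ∀ τ < 2, Nat.Coprime (PT τ I) q := by
      intro τ hτ
      apply Nat.Coprime.prod_left
      intro j hj
      have hj' := Finset.mem_range.mp hj
      apply PP_coprime_of
      intro i _ b hb k hk
      exact hgood1 i (j + 17 * τ) (by omega) b hb k hk
    exact Nat.Coprime.mul_right (h 0 (by omega)).symm (h 1 (by omega)).symm
  · intro τ hτ r
    have hj17 : ∀ j : Fin 17, j.val + 17 * τ < 34 := fun j => by have := j.isLt; omega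
    have hzpos : (1 : ℝ) < z := by
      have h128 : (2 : ℕ) ≤ 2 ^ 128 := by norm_num
      have : 2 ≤ z := h128.trans hz
      exact_mod_cast (by omega : 1 < z)
    obtain ⟨f, hf, hfr⟩ := cover_of_bound q
      (fun j : Fin 17 => XX (j.val + 17 * τ) (I + 1)) (fun ξ : List ℕ => ξ.prod)
      (fun j => XX_nonempty _ _) (fun x => 1 / rr (ordZ q x))
      (fun x => by have := rr_nonneg (ordZ q x); positivity)
      (by
        intro x hx j
        obtain ⟨h1, h2, h3, h4, h5⟩ := ord_facts q x hx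
        set t := ordZ q x with ht
        set g := Nat.gcd x.val q with hg
        set v' := x.val / g with hv'
        have ht0 : 0 < t := by omega
        have : NeZero t := ⟨ht0.ne'⟩
        have htq : t < 2 ^ (l + 2) := (Nat.le_of_dvd hq0 h5).trans_lt hql
        have htz : z < t := hrough t h5 h4
        obtain ⟨i, hi1, hi2, hi3⟩ := exists_scale t l (hz.trans htz.le) htq
        have hiI : i < I + 1 := by
          by_contra hcon
          have : 2 ^ (I + 8) ≤ 2 ^ (i + 7) := Nat.pow_le_pow_right (by norm_num) (by omega)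
          omega
        have hsum_eq : ∑ ξ ∈ XX (j.val + 17 * τ) (I + 1),
              (ZMod.stdAddChar (x * ((ξ.prod : ℕ) : ZMod q)) : ℂ)
            = ∑ ξ ∈ XX (j.val + 17 * τ) (I + 1),
              (ZMod.stdAddChar (((v' : ℕ) : ZMod t) * ((ξ.prod : ℕ) : ZMod t)) : ℂ) := by
          refine Finset.sum_congr rfl fun ξ _ => ?_
          exact stdAddChar_reduce q t g v' h1 _ x h2
        have hcu : IsUnit ((v' : ℕ) : ZMod t) := (ZMod.isUnit_iff_coprime _ _).mpr h3
        have hr4 := rr_pow_four t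
        have ht2 : (2 : ℝ) ^ 4 ≤ (t : ℝ) := by
          have : (2 : ℕ) ^ 4 ≤ t := by
            have : (2 : ℕ) ^ 4 ≤ 2 ^ 128 := Nat.pow_le_pow_right (by norm_num) (by norm_num)
            omega
          exact_mod_cast this
        have hr2 : 2 ≤ rr t := le_rr_of_pow_le ht2
        have hcard : ∀ b j', 2 * rr t ^ 3 ≤ ((AA i j' b).card : ℝ) := by
          intro b j'
          have h6 : t ≤ (AA i j' b).card := hi2.le.trans (card_AA_ge i j' b)
          have h7 : (t : ℝ) ≤ ((AA i j' b).card : ℝ) := by exact_mod_cast h6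
          have h8 : 2 * rr t ^ 3 ≤ rr t ^ 4 := by
            have : 0 ≤ rr t ^ 3 := by positivity
            nlinarith
          rw [hr4] at h8
          linarith
        have hbil : ∀ c : ZMod t, IsUnit c →
            ‖∑ a ∈ AA i (j.val + 17 * τ) 0, ∑ b ∈ AA i (j.val + 17 * τ) 1,
              (ZMod.stdAddChar (c * (a : ZMod t) * (b : ZMod t)) : ℂ)‖
            ≤ (((AA i (j.val + 17 * τ) 0).card : ℝ) * (AA i (j.val + 17 * τ) 1).card) * (1 / rr t) :=
          fun c hc => good_bilinear t _ _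
            (hgood2 t h5 h4 i hi1 hi2 _ (hj17 j) 0 (by omega))
            (hgood2 t h5 h4 i hi1 hi2 _ (hj17 j) 1 (by omega))
            (hcard 0 _) (hcard 1 _) c hc
        have hcopA : ∀ b < 2, ∀ m < I + 1, ∀ a ∈ AA m (j.val + 17 * τ) b, Nat.Coprime a t := by
          intro b hb m _ a ha
          have : Nat.Coprime a q := AA_coprime ha (fun k hk =>
            hgood1 m _ (hj17 j) b hb k hk)
          exact this.coprime_dvd_right h5
        have hfinal := prodSet_bound t (fun i => AA i (j.val + 17 * τ) 0)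
          (fun i => AA i (j.val + 17 * τ) 1) (1 / rr t) i hbil (I + 1) hiI
          (hcopA 0 (by omega)) (hcopA 1 (by omega)) _ hcu
        rw [hsum_eq]
        exact hfinal)
      (by
        have hbound : ∀ x ∈ (Finset.univ : Finset (ZMod q)).erase 0,
            ∏ _j : Fin 17, (1 / rr (ordZ q x)) ≤ (1 : ℝ) / (ordZ q x : ℝ) ^ 4 := by
          intro x hx
          have hx0 : x ≠ 0 := (Finset.mem_erase.mp hx).1
          obtain ⟨_, _, _, h4, _⟩ := ord_facts q x hx0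
          rw [Finset.prod_const, Finset.card_univ, Fintype.card_fin]
          have ht1 : (1 : ℝ) ^ 4 ≤ ((ordZ q x : ℕ) : ℝ) := by
            have : (1 : ℝ) ≤ (ordZ q x : ℝ) := by exact_mod_cast (by omega : 1 ≤ ordZ q x)
            simpa using this
          have hr1 : 1 ≤ rr (ordZ q x) := le_rr_of_pow_le ht1
          have hr4 := rr_pow_four (ordZ q x)
          have h5 : (1 / rr (ordZ q x)) ^ 17 ≤ (1 / rr (ordZ q x)) ^ 16 := by
            apply pow_le_pow_of_le_one (by positivity) _ (by norm_num)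
            rw [div_le_one (by linarith)]
            exact hr1
          refine h5.trans (le_of_eq ?_)
          rw [← hr4]
          rw [one_div_pow, ← pow_mul]
        have hz1 : 1 ≤ z := by
          have : (1 : ℕ) < z := by exact_mod_cast hzpos
          omega
        have h6 := sum_ord_le q z hz1 hrough
        have h7 : (1 : ℝ) / z < 1 := by
          rw [div_lt_one (by linarith)]
          exact hzpos
        exact lt_of_le_of_lt ((Finset.sum_le_sum hbound).trans h6) h7)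
      (r : ZMod q)
    refine ⟨fun j => (f j).prod, ?_, ?_, ?_⟩
    · intro j₁ j₂ hj
      by_contra hne
      have hf₁ := Fintype.mem_piFinset.mp hf j₁
      have hf₂ := Fintype.mem_piFinset.mp hf j₂
      have hd₁ := XX_dvd hf₁
      have hd₂ := XX_dvd hf₂
      have hval : j₁.val + 17 * τ ≠ j₂.val + 17 * τ := by
        intro h
        apply hne
        ext
        omega
      have hcop := PP_coprime (n := I + 1) (n' := I + 1) (hj17 j₁) (hj17 j₂) hval
      simp only at hj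
      rw [← hj] at hd₂
      have h1 : Nat.Coprime (f j₁).prod (f j₁).prod := hcop.coprime_dvd_left hd₁ |>.coprime_dvd_right hd₂
      have h2 := (Nat.coprime_self _).mp h1
      have h3 := XX_one_lt hf₁
      omega
    · intro j
      have hf₁ := Fintype.mem_piFinset.mp hf j
      exact ⟨(XX_dvd hf₁).trans (PP_dvd_PT j.isLt), XX_one_lt hf₁⟩
    · exact (ZMod.natCast_eq_natCast_iff _ _ _).mp hfr

/-! ### Numerics -/

lemma six_thousand_le (v : ℕ) (hv : 20 ≤ v) : 6800 * (v + 1) ≤ 2 ^ v := by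
  induction v, hv using Nat.le_induction with
  | base => norm_num
  | succ v hv ih => rw [pow_succ]; omega

lemma mul_le_two_pow_div (l : ℕ) (hl : 100000 ≤ l) : 68 * l ≤ 2 ^ (l / 100) := by
  have h1 := six_thousand_le (l / 100) (by omega)
  have h2 : l < 100 * (l / 100 + 1) := by omega
  nlinarith

lemma sum_half_pow_le (l a : ℕ) : ∑ i ∈ range l, (1 / 2 : ℝ) ^ (i + a) ≤ (1 / 2) ^ a * 2 := by
  have h := sum_geometric_two_le l
  have : ∑ i ∈ range l, (1 / 2 : ℝ) ^ (i + a) = (1 / 2) ^ a * ∑ i ∈ range l, (1 / 2 : ℝ) ^ i := by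
    rw [Finset.mul_sum]
    refine Finset.sum_congr rfl fun i _ => ?_
    rw [pow_add]; ring
  rw [this]
  exact mul_le_mul_of_nonneg_left h (by positivity)

/-- the total of the averaging weights is smaller than the length of the progression. -/
lemma total_numeric (l N G K : ℕ) (hl : 100000 ≤ l) (hN : 2 ^ (l - 2 * (l / 20)) ≤ N)
    (hG : l / 100 + G + 2 ≤ l - 2 * (l / 20)) (hK : l / 100 + K + 2 ≤ l - 2 * (l / 20)) :
    ∑ i ∈ range l, ((68 : ℝ) * ((2 * (N : ℝ) * (1 / 2) ^ (27 * 2 ^ i) + 2 ^ G)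
      + ((N : ℝ) / (nn i : ℝ) + 2 ^ K))) < (N : ℝ) := by
  have hS1 : ∑ i ∈ range l, (1 / 2 : ℝ) ^ (27 * 2 ^ i) ≤ (1 / 2) ^ 27 * 2 := by
    refine le_trans (Finset.sum_le_sum fun i _ => ?_) (sum_half_pow_le l 27)
    apply pow_le_pow_of_le_one (by norm_num) (by norm_num)
    have : i < 2 ^ i := Nat.lt_two_pow_self
    omega
  have hS2 : ∑ i ∈ range l, (1 / (nn i : ℝ)) ≤ (1 / 2) ^ 257 * 2 := by
    refine le_trans (le_of_eq (Finset.sum_congr rfl fun i _ => ?_)) (sum_half_pow_le l 257)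
    rw [nn_eq]
    push_cast
    rw [one_div_pow]
  have hNpos : (0 : ℝ) < N := by
    have : 0 < N := lt_of_lt_of_le (Nat.two_pow_pos _) hN
    exact_mod_cast this
  have hNr : (2 : ℝ) ^ (l - 2 * (l / 20)) ≤ N := by exact_mod_cast hN
  have hl68 : ((68 * l : ℕ) : ℝ) ≤ 2 ^ (l / 100) := by
    exact_mod_cast mul_le_two_pow_div l hl
  have hG' : (68 : ℝ) * l * 2 ^ G ≤ N / 4 := by
    have h1 : (2 : ℝ) ^ (l / 100) * 2 ^ G * 4 ≤ 2 ^ (l - 2 * (l / 20)) := by
      have : (2 : ℝ) ^ (l / 100) * 2 ^ G * 4 = 2 ^ (l / 100 + G + 2) := by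
        rw [pow_add, pow_add]; norm_num
      rw [this]
      exact pow_le_pow_right₀ (by norm_num) hG
    have h2 : (68 : ℝ) * l * 2 ^ G ≤ 2 ^ (l / 100) * 2 ^ G := by
      apply mul_le_mul_of_nonneg_right _ (by positivity)
      push_cast at hl68
      exact hl68
    linarith
  have hK' : (68 : ℝ) * l * 2 ^ K ≤ N / 4 := by
    have h1 : (2 : ℝ) ^ (l / 100) * 2 ^ K * 4 ≤ 2 ^ (l - 2 * (l / 20)) := by
      have : (2 : ℝ) ^ (l / 100) * 2 ^ K * 4 = 2 ^ (l / 100 + K + 2) := by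
        rw [pow_add, pow_add]; norm_num
      rw [this]
      exact pow_le_pow_right₀ (by norm_num) hK
    have h2 : (68 : ℝ) * l * 2 ^ K ≤ 2 ^ (l / 100) * 2 ^ K := by
      apply mul_le_mul_of_nonneg_right _ (by positivity)
      push_cast at hl68
      exact hl68
    linarith
  have hexpand : ∑ i ∈ range l, ((68 : ℝ) * ((2 * (N : ℝ) * (1 / 2) ^ (27 * 2 ^ i) + 2 ^ G)
      + ((N : ℝ) / (nn i : ℝ) + 2 ^ K)))
      = 136 * N * (∑ i ∈ range l, (1 / 2 : ℝ) ^ (27 * 2 ^ i))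
        + 68 * N * (∑ i ∈ range l, (1 / (nn i : ℝ)))
        + 68 * l * 2 ^ G + 68 * l * 2 ^ K := by
    rw [Finset.mul_sum, Finset.mul_sum]
    have hc1 : (68 : ℝ) * l * 2 ^ G = ∑ _i ∈ range l, (68 : ℝ) * 2 ^ G := by
      rw [Finset.sum_const, Finset.card_range, nsmul_eq_mul]; ring
    have hc2 : (68 : ℝ) * l * 2 ^ K = ∑ _i ∈ range l, (68 : ℝ) * 2 ^ K := by
      rw [Finset.sum_const, Finset.card_range, nsmul_eq_mul]; ring
    rw [hc1, hc2, ← Finset.sum_add_distrib, ← Finset.sum_add_distrib, ← Finset.sum_add_distrib]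
    refine Finset.sum_congr rfl fun i _ => ?_
    have hnn : (nn i : ℝ) ≠ 0 := by
      have := nn_pos i
      positivity
    field_simp
    ring
  rw [hexpand]
  have h1 : 136 * (N : ℝ) * (∑ i ∈ range l, (1 / 2 : ℝ) ^ (27 * 2 ^ i)) ≤ N / 8 := by
    have : 136 * (N : ℝ) * (∑ i ∈ range l, (1 / 2 : ℝ) ^ (27 * 2 ^ i))
        ≤ 136 * (N : ℝ) * ((1 / 2) ^ 27 * 2) :=
      mul_le_mul_of_nonneg_left hS1 (by positivity)
    refine this.trans ?_
    have h3 : (136 : ℝ) * ((1 / 2) ^ 27 * 2) ≤ 1 / 8 := by norm_num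
    nlinarith
  have h2 : 68 * (N : ℝ) * (∑ i ∈ range l, (1 / (nn i : ℝ))) ≤ N / 8 := by
    have : 68 * (N : ℝ) * (∑ i ∈ range l, (1 / (nn i : ℝ))) ≤ 68 * (N : ℝ) * ((1 / 2) ^ 257 * 2) :=
      mul_le_mul_of_nonneg_left hS2 (by positivity)
    refine this.trans ?_
    have h3 : (68 : ℝ) * ((1 / 2) ^ 257 * 2) ≤ 1 / 8 := by norm_num
    nlinarith
  linarith

lemma numeric_GK (l : ℕ) (hl : 100000 ≤ l) :
    l / 100 + ((l + 2) / 25 + 3 * ((l + 2) / 4 + 1) + 1) + 2 ≤ l - 2 * (l / 20) ∧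
    l / 100 + (l / 2 + 257) + 2 ≤ l - 2 * (l / 20) := by
  have h : ∀ c ≤ 300, l / 100 + (l / 2 + c) + 2 ≤ l - 2 * (l / 20) := by
    intro c hc
    omega
  exact ⟨by omega, h 257 (by norm_num)⟩

open scoped Classical in
/-- rough moduli at scale `i`. -/
noncomputable def Ts (l z i : ℕ) : Finset ℕ :=
  (Finset.range (2 ^ (l + 2))).filter
    (fun t => Rough z t ∧ 2 ^ (2 ^ (i + 7)) ≤ t ∧ t < 2 ^ (2 ^ (i + 8)))

open scoped Classical in
lemma mem_Ts {l z i t : ℕ} :
    t ∈ Ts l z i ↔ t < 2 ^ (l + 2) ∧ Rough z t ∧ 2 ^ (2 ^ (i + 7)) ≤ t ∧ t < 2 ^ (2 ^ (i + 8)) := by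
  unfold Ts
  rw [Finset.mem_filter, Finset.mem_range]

open scoped Classical in
lemma badT_sum (l z w N i j b : ℕ) (hj : j < 34) (hb : b < 2) (hw : 1030 ≤ w) (h2w : 2 ^ w ≤ z)
    (hzl : l + 2 ≤ 2 ^ (w + 7)) :
    ∑ t ∈ (Ts l z i).filter (Bad (AA i j b)), ((N : ℝ) / t + 1)
      ≤ 2 * (N : ℝ) * (1 / 2) ^ (27 * 2 ^ i) + 2 ^ ((l + 2) / 25 + 3 * ((l + 2) / 4 + 1) + 1) := by
  rcases (Ts l z i).eq_empty_or_nonempty with hemp | ⟨t₀, ht₀⟩
  · rw [hemp]
    simp only [Finset.filter_empty, Finset.sum_empty]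
    positivity
  obtain ⟨h1, _, h3, _⟩ := mem_Ts.mp ht₀
  have hi1 : 2 ^ (i + 7) < l + 2 := by
    by_contra hcon
    have : 2 ^ (l + 2) ≤ 2 ^ (2 ^ (i + 7)) := Nat.pow_le_pow_right (by norm_num) (by omega)
    omega
  have hiw : i < w := by
    have : 2 ^ (i + 7) < 2 ^ (w + 7) := lt_of_lt_of_le hi1 hzl
    have := (Nat.pow_lt_pow_iff_right (by norm_num : 1 < 2)).mp this
    omega
  set m := (l + 2) / 4 + 1 with hm
  have hρ4 : ((2 : ℝ) ^ (32 * 2 ^ i)) ^ 4 = ((2 ^ (2 ^ (i + 7)) : ℕ) : ℝ) := by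
    push_cast
    rw [← pow_mul]
    congr 1
    rw [pow_add]
    ring
  have hbad := bad_sum_bound (AA i j b) (Ts l z i) z (5 * 2 ^ i) (N : ℝ)
    ((2 : ℝ) ^ (32 * 2 ^ i)) ((2 : ℝ) ^ m) (by positivity) (by positivity) (by positivity)
    (AA_nonempty i j b)
    (fun t ht => (mem_Ts.mp ht).2.1)
    (by
      intro a ha
      have h4 := AA_lt hj hb ha
      refine h4.trans_le ?_
      have h5 : 2 ^ (4 * i + 1030) ≤ z ^ 5 := by
        calc 2 ^ (4 * i + 1030) ≤ 2 ^ (w * 5) := Nat.pow_le_pow_right (by norm_num) (by omega)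
          _ = (2 ^ w) ^ 5 := by rw [pow_mul]
          _ ≤ z ^ 5 := Nat.pow_le_pow_left h2w 5
      calc (2 ^ (4 * i + 1030)) ^ 2 ^ i ≤ (z ^ 5) ^ 2 ^ i := Nat.pow_le_pow_left h5 _
        _ = z ^ (5 * 2 ^ i) := by rw [pow_mul])
    (by
      intro t ht
      obtain ⟨_, _, h5, _⟩ := mem_Ts.mp ht
      apply le_rr_of_pow_le
      rw [hρ4]
      exact_mod_cast h5)
    (by
      intro t ht
      obtain ⟨h5, _⟩ := mem_Ts.mp ht
      apply rr_le_of_le_pow (by positivity)
      have h6 : t ≤ 2 ^ (m * 4) := by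
        refine h5.le.trans (Nat.pow_le_pow_right (by norm_num) ?_)
        omega
      rw [← pow_mul]
      exact_mod_cast h6)
  refine hbad.trans ?_
  have h2i : 2 ^ (i + 7) = 128 * 2 ^ i := by rw [pow_add]; ring
  have h5i : 5 * 2 ^ i ≤ (l + 2) / 25 := by
    rw [Nat.le_div_iff_mul_le (by norm_num)]
    omega
  have hsplit : (2 : ℝ) ^ (5 * 2 ^ i) * (2 * (N : ℝ) / 2 ^ (32 * 2 ^ i) + 2 * ((2 : ℝ) ^ m) ^ 3)
      = 2 * (N : ℝ) * (1 / 2) ^ (27 * 2 ^ i) + 2 ^ (5 * 2 ^ i + 3 * m + 1) := by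
    have h6 : (2 : ℝ) ^ (32 * 2 ^ i) = 2 ^ (27 * 2 ^ i) * 2 ^ (5 * 2 ^ i) := by
      rw [← pow_add]; congr 1; ring
    have h7 : (2 : ℝ) ^ (5 * 2 ^ i + 3 * m + 1) = 2 ^ (5 * 2 ^ i) * ((2 ^ m) ^ 3 * 2) := by
      rw [pow_add, pow_add, pow_mul']
      ring_nf
    rw [h6, h7, one_div_pow]
    field_simp
  rw [hsplit]
  have h8 : (2 : ℝ) ^ (5 * 2 ^ i + 3 * m + 1) ≤ 2 ^ ((l + 2) / 25 + 3 * m + 1) :=
    pow_le_pow_right₀ (by norm_num) (by omega)
  linarith

lemma poolT_sum (N i j b : ℕ) (hj : j < 34) (hb : b < 2) :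
    ∑ t ∈ (idx i j b).image pr, ((N : ℝ) / t + 1) ≤ (N : ℝ) / (nn i : ℝ) + nn i := by
  classical
  rw [Finset.sum_image (fun x _ y _ h => pr_injective h)]
  have hnn : (0 : ℝ) < nn i := by exact_mod_cast nn_pos i
  have h1 : ∀ k ∈ idx i j b, (N : ℝ) / (pr k : ℝ) + 1 ≤ (N : ℝ) / ((nn i : ℝ) ^ 2) + 1 := by
    intro k hk
    have h2 : nn i ^ 2 ≤ pr k := (idx_bounds hj hb hk).1.trans (le_pr k)
    have h3 : ((nn i : ℝ)) ^ 2 ≤ pr k := by exact_mod_cast h2
    have := div_le_div_of_nonneg_left (Nat.cast_nonneg (α := ℝ) N) (by positivity) h3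
    linarith
  refine (Finset.sum_le_sum h1).trans (le_of_eq ?_)
  rw [Finset.sum_const, card_idx, nsmul_eq_mul]
  field_simp

open scoped Classical in
/-- Existence of a good modulus in an arithmetic progression. -/
theorem exists_good (l c d N : ℕ) (hl : 2 ^ 1036 ≤ l)
    (hd : ∀ p, p.Prime → p ≤ l / 40 → p ∣ d)
    (hN : 2 ^ (l - 2 * (l / 20)) ≤ N)
    (hcop : ∀ s < N, Nat.Coprime (c + d * s) d)
    (hpos : ∀ s < N, 0 < c + d * s)
    (hlt : ∀ s < N, c + d * s < 2 ^ (l + 2)) :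
    ∃ s < N, GoodQ (c + d * s) := by
  have hl5 : 100000 ≤ l := le_trans (by norm_num) hl
  set z := l / 40 with hz
  have hz1030 : 2 ^ 1030 ≤ z := by
    rw [hz, Nat.le_div_iff_mul_le (by norm_num)]
    refine le_trans ?_ hl
    norm_num
  set w := Nat.log 2 z with hw
  have hz0 : z ≠ 0 := by
    intro h
    rw [h] at hz1030
    norm_num at hz1030
  have h2w : 2 ^ w ≤ z := Nat.pow_log_le_self 2 hz0
  have hzw : z < 2 ^ (w + 1) := Nat.lt_pow_succ_log_self (by norm_num) z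
  have hw1030 : 1030 ≤ w := Nat.le_log_of_pow_le (by norm_num) hz1030
  have hzl : l + 2 ≤ 2 ^ (w + 7) := by
    have h1 : 2 ^ (w + 1) = 2 * 2 ^ w := by rw [pow_succ]; ring
    have h2 : 2 ^ (w + 7) = 128 * 2 ^ w := by rw [pow_add]; ring
    have h3 : 1 ≤ 2 ^ w := Nat.one_le_two_pow
    omega
  set G := (l + 2) / 25 + 3 * ((l + 2) / 4 + 1) + 1 with hG
  set K := l / 2 + 257 with hK
  set Is : Finset (ℕ × ℕ × ℕ) := Finset.range l ×ˢ (Finset.range 34 ×ˢ Finset.range 2) with hIs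
  set BB : ℕ × ℕ × ℕ → Finset ℕ := fun p =>
    (Ts l z p.1).filter (Bad (AA p.1 p.2.1 p.2.2)) ∪
      (if p.1 < l / 2 then (idx p.1 p.2.1 p.2.2).image pr else ∅) with hBB
  have hBBpos : ∀ p ∈ Is, ∀ t ∈ BB p, 0 < t := by
    intro p _ t ht
    rcases Finset.mem_union.mp ht with h | h
    · obtain ⟨h1, _⟩ := Finset.mem_filter.mp h
      obtain ⟨_, _, h3, _⟩ := mem_Ts.mp h1
      exact lt_of_lt_of_le (Nat.two_pow_pos _) h3
    · split_ifs at h with hi
      · obtain ⟨k, _, rfl⟩ := Finset.mem_image.mp h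
        exact (pr_prime k).pos
      · simp at h
  have hsum : ∑ p ∈ Is, ∑ t ∈ BB p, ((N : ℝ) / t + 1) < N := by
    have hstep : ∀ p ∈ Is, ∑ t ∈ BB p, ((N : ℝ) / t + 1)
        ≤ ((2 * (N : ℝ) * (1 / 2) ^ (27 * 2 ^ p.1) + 2 ^ G) + ((N : ℝ) / (nn p.1 : ℝ) + 2 ^ K)) := by
      rintro ⟨i, j, b⟩ hp
      simp only [hIs, Finset.mem_product, Finset.mem_range] at hp
      obtain ⟨hi, hj, hb⟩ := hp
      simp only [hBB]
      have hnn0 : (0 : ℝ) ≤ (N : ℝ) / (nn i : ℝ) := by positivity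
      have h2K : (0 : ℝ) < 2 ^ K := by positivity
      have hf : ∀ t : ℕ, (0 : ℝ) ≤ (N : ℝ) / t + 1 := fun t => by positivity
      have hunion : ∀ (A B : Finset ℕ), ∑ t ∈ A ∪ B, ((N : ℝ) / t + 1)
          ≤ ∑ t ∈ A, ((N : ℝ) / t + 1) + ∑ t ∈ B, ((N : ℝ) / t + 1) := by
        intro A B
        rw [← Finset.sum_union_inter]
        have : 0 ≤ ∑ t ∈ A ∩ B, ((N : ℝ) / t + 1) := Finset.sum_nonneg fun t _ => hf t
        linarith
      refine (hunion _ _).trans ?_
      apply add_le_add (badT_sum l z w N i j b hj hb hw1030 h2w hzl)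
      split_ifs with hi2
      · refine (poolT_sum N i j b hj hb).trans ?_
        have : ((nn i : ℕ) : ℝ) ≤ 2 ^ K := by
          rw [nn_eq]
          push_cast
          exact pow_le_pow_right₀ (by norm_num) (by omega)
        linarith
      · simp only [Finset.sum_empty]
        positivity
    refine lt_of_le_of_lt (Finset.sum_le_sum hstep) ?_
    have hprod : ∑ p ∈ Is, ((2 * (N : ℝ) * (1 / 2) ^ (27 * 2 ^ p.1) + 2 ^ G)
          + ((N : ℝ) / (nn p.1 : ℝ) + 2 ^ K))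
        = ∑ i ∈ range l, ((68 : ℝ) * ((2 * (N : ℝ) * (1 / 2) ^ (27 * 2 ^ i) + 2 ^ G)
          + ((N : ℝ) / (nn i : ℝ) + 2 ^ K))) := by
      rw [hIs, Finset.sum_product]
      refine Finset.sum_congr rfl fun i _ => ?_
      dsimp only
      rw [Finset.sum_const]
      simp only [Finset.card_product, Finset.card_range, nsmul_eq_mul]
      norm_num
    rw [hprod]
    exact total_numeric l N G K hl5 hN (numeric_GK l hl5).1 (numeric_GK l hl5).2
  obtain ⟨s, hs, havoid⟩ := exists_avoid c d N Is BB hBBpos hcop hsum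
  refine ⟨s, hs, ?_, ?_⟩
  · intro i j hj b hb k hk hdvd
    have hq := hpos s hs
    have hqlt := hlt s hs
    by_cases hi : i < l / 2
    · refine havoid (i, j, b) ?_ (pr k) ?_ hdvd
      · simp only [hIs, Finset.mem_product, Finset.mem_range]
        exact ⟨by omega, hj, hb⟩
      · simp only [hBB]
        apply Finset.mem_union_right
        rw [if_pos hi]
        exact Finset.mem_image_of_mem _ hk
    · have h1 := le_pr_idx hj hb hk
      have h2 : 2 ^ (l + 2) ≤ 2 ^ (2 * i + 514) := Nat.pow_le_pow_right (by norm_num) (by omega)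
      have h3 := Nat.le_of_dvd hq hdvd
      omega
  · intro t htq ht1 i hi1 hi2 j hj b hb hbad
    have hq := hpos s hs
    have hqlt := hlt s hs
    have htle : t < 2 ^ (l + 2) := (Nat.le_of_dvd hq htq).trans_lt hqlt
    have hrough : Rough z t := by
      intro p hp hpt
      by_contra hcon
      have h1 : p ∣ d := hd p hp (by omega)
      have h2 : p ∣ c + d * s := hpt.trans htq
      have h3 := Nat.dvd_gcd h2 h1
      rw [hcop s hs] at h3
      exact hp.one_lt.ne' (Nat.dvd_one.mp h3)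
    have hil : i < l := by
      have h1 : 2 ^ (i + 7) < l + 2 := by
        by_contra hcon
        have : 2 ^ (l + 2) ≤ 2 ^ (2 ^ (i + 7)) := Nat.pow_le_pow_right (by norm_num) (by omega)
        omega
      have h2 : i + 7 < 2 ^ (i + 7) := Nat.lt_two_pow_self
      omega
    refine havoid (i, j, b) ?_ t ?_ htq
    · simp only [hIs, Finset.mem_product, Finset.mem_range]
      exact ⟨hil, hj, hb⟩
    · simp only [hBB]
      apply Finset.mem_union_left
      exact Finset.mem_filter.mpr ⟨mem_Ts.mpr ⟨htle, hrough, hi1, hi2⟩, hbad⟩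

/-- The key covering lemma. -/
theorem key_cover (I l c d N : ℕ) (hl : 2 ^ 1036 ≤ l) (hlI : l + 2 ≤ 2 ^ (I + 8))
    (hd : ∀ p, p.Prime → p ≤ l / 40 → p ∣ d)
    (hN : 2 ^ (l - 2 * (l / 20)) ≤ N)
    (hcop : ∀ s < N, Nat.Coprime (c + d * s) d)
    (hpos : ∀ s < N, 0 < c + d * s)
    (hlt : ∀ s < N, c + d * s < 2 ^ (l + 2)) :
    ∃ s < N, Nat.Coprime (c + d * s) (PT 0 I * PT 1 I) ∧
      ∀ τ < 2, ∀ r : ℕ, ∃ e : Fin 17 → ℕ, Function.Injective e ∧
        (∀ j, e j ∣ PT τ I ∧ 1 < e j) ∧ (∑ j, e j) ≡ r [MOD (c + d * s)] := by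
  obtain ⟨s, hs, hgood⟩ := exists_good l c d N hl hd hN hcop hpos hlt
  refine ⟨s, hs, ?_⟩
  have hz : 2 ^ 128 ≤ l / 40 := by
    rw [Nat.le_div_iff_mul_le (by norm_num)]
    refine le_trans ?_ hl
    norm_num
  refine cover_of_good I l (c + d * s) (l / 40) (hpos s hs) (hlt s hs) hlI hz hgood ?_
  intro t htq ht1
  obtain ⟨p, hp, hpt⟩ := Nat.exists_prime_and_dvd (by omega : t ≠ 1)
  have h1 : l / 40 < p := by
    by_contra hcon
    have h1 : p ∣ d := hd p hp (by omega)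
    have h2 : p ∣ c + d * s := hpt.trans htq
    have h3 := Nat.dvd_gcd h2 h1
    rw [hcop s hs] at h3
    exact hp.one_lt.ne' (Nat.dvd_one.mp h3)
  have h2 : p ≤ t := Nat.le_of_dvd (by omega) hpt
  omega

end Crest.Agent.Egy
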