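import Crest.Agent.Lib.Egy.Ends

/-!
# Assembling the algorithm
-/

set_option autoImplicit false
set_option exponentiation.threshold 3000

namespace Crest.Agent.Egy

open Finset

lemma PT_one_lt {τ : ℕ} (hτ : τ < 2) (I : ℕ) : 1 < PT τ I := by
  obtain ⟨l, hl⟩ := XX_nonempty (0 + 17 * τ) (I + 1)
  have h1 := XX_one_lt hl
  have h2 : l.prod ∣ PT τ I := (XX_dvd hl).trans (PP_dvd_PT (j := 0) (by norm_num))
  have h3 := Nat.le_of_dvd (PT_odd hτ I).pos h2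
  omega

lemma pow_ratio_21 (v : ℕ) : 21 ^ (16 * v) * 2 ^ v ≤ 22 ^ (16 * v) := by
  rw [pow_mul, pow_mul, ← mul_pow]
  exact Nat.pow_le_pow_left (by norm_num) v

lemma pow_ratio_40 (v : ℕ) : 40 ^ (29 * v) * 2 ^ v ≤ 41 ^ (29 * v) := by
  rw [pow_mul, pow_mul, ← mul_pow]
  exact Nat.pow_le_pow_left (by norm_num) v

/-- The constant in the number of terms -/
def KK (I l₀ : ℕ) : ℕ :=
  18 + (l₀ + 1) + 18 * (16 * (I + 8)) + 18 * ((4 * I + 1035) * 2 ^ 262)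
    + 17 * ((4 * I + 1035) * 2 ^ 262) + 17 * (29 * (I + 8))

set_option maxHeartbeats 1000000 in
set_option maxRecDepth 100000 in
/-- Both phases, given the opening. -/
theorem phases {P₀ P₁ L₀ L F₀ B l₀ I E₁ : ℕ} (par : AlgPar P₀ P₁ L₀ L F₀ B) {target : ℚ}
    (hl₀ : 2 ^ 1036 ≤ l₀) (hl₀le : l₀ ≤ 2 ^ 1036) (hI : 1040 ≤ I) (hL : L + 4 = 2 ^ (I + 8))
    (hB : B + 4 ≤ 2 ^ (I + 9)) (hP : P₀ * P₁ ≤ 2 ^ Ebound I)
    (hE₁ : Ebound I + 5 + B + (l₀ + 1) ≤ E₁)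
    (hE₁' : E₁ = Ebound I + 5 + B + 1 + (l₀ + 1))
    {T₁ : Finset ℕ} {W₁ : ℕ} (hS₁ : SI P₀ P₁ F₀ B target T₁ W₁ E₁ 0 (l₀ + 1))
    (hT₁ : T₁.card ≤ 18 + (l₀ + 1)) :
    ∃ S : Finset ℕ, (∀ n ∈ S, 2 ≤ n) ∧ ∑ n ∈ S, (1 : ℚ) / (n : ℚ) = target ∧
      S.card ≤ 3 * KK I l₀ + 2 + (2 * l₀ + 2) := by
  have hPP : 0 < P₀ * P₁ := Nat.mul_pos (by have := par.one₀; omega) (by have := par.one₁; omega)
  have hl₀pos : 1 ≤ l₀ := le_trans (by norm_num) hl₀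
  have hLbig := par.hLbig
  set X := 2 ^ I with hX
  have hXbig : 2 ^ 1040 ≤ X := Nat.pow_le_pow_right (by norm_num) hI
  have hp8 : 2 ^ (I + 8) = 256 * X := by rw [pow_add]; norm_num; ring
  have hp9 : 2 ^ (I + 9) = 512 * X := by rw [pow_add]; norm_num; ring
  have hp3 : 2 ^ (I + 3) = 8 * X := by rw [pow_add]; norm_num; ring
  have hp265 : 2 ^ (I + 265) = 2 ^ 265 * X := by rw [pow_add]; ring
  set A := 4 * I + 1034 with hA
  set NN := (4 * I + 1035) * 2 ^ 262 with hNN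
  have hEb : Ebound I = A * (2 ^ 265 * X) := by
    unfold Ebound
    rw [hp265]
  -- the size of `L / 21`
  have hL21 : 8 * X ≤ L / 21 := by
    rw [Nat.le_div_iff_mul_le (by norm_num)]
    omega
  have hNNmul : (A + 1) * (2 ^ 265 * X) ≤ NN * (L / 21) := by
    calc (A + 1) * (2 ^ 265 * X) = NN * (8 * X) := by
          rw [hNN, hA]
          have : (2 : ℕ) ^ 265 = 2 ^ 262 * 8 := by norm_num
          rw [this]
          ring
      _ ≤ NN * (L / 21) := Nat.mul_le_mul_left _ hL21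
  have hE1bound : E₁ ≤ (l₀ + 1) + NN * (L / 21) := by
    have h1 : (A + 1) * (2 ^ 265 * X) = A * (2 ^ 265 * X) + 2 ^ 265 * X := by ring
    have h2 : 2 ^ 12 * X ≤ 2 ^ 265 * X := Nat.mul_le_mul_right _ (by norm_num)
    rw [hEb] at hE₁'
    have h3 : 2 ^ 12 * X = 4096 * X := by norm_num
    omega
  -- early part of the first phase
  have hpot1 : L * 21 ^ (16 * (I + 8)) ≤ (l₀ + 1 - 0 - 1) * 22 ^ (16 * (I + 8)) := by
    have h1 := pow_ratio_21 (I + 8)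
    have h2 : L ≤ 2 ^ (I + 8) := by omega
    have h3 : l₀ + 1 - 0 - 1 = l₀ := by omega
    rw [h3]
    calc L * 21 ^ (16 * (I + 8)) ≤ 2 ^ (I + 8) * 21 ^ (16 * (I + 8)) :=
          Nat.mul_le_mul_right _ h2
      _ = 21 ^ (16 * (I + 8)) * 2 ^ (I + 8) := mul_comm _ _
      _ ≤ 22 ^ (16 * (I + 8)) := h1
      _ = 1 * 22 ^ (16 * (I + 8)) := (one_mul _).symm
      _ ≤ l₀ * 22 ^ (16 * (I + 8)) := Nat.mul_le_mul_right _ hl₀pos
  obtain ⟨T₂, W₂, E₂, k₂, X₂, hS₂, hc₂, hk₂, hE₂, hE₂', hd₂⟩ :=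
    chainI_early par hl₀ (16 * (I + 8)) T₁ W₁ E₁ 0 (l₀ + 1) hS₁ (by omega) hpot1
  -- top part of the first phase
  have hstep3 : ∃ (T₃ : Finset ℕ) (W₃ E₃ k₃ X₃ : ℕ), SI P₀ P₁ F₀ B target T₃ W₃ E₃ k₃ X₃ ∧
      T₃.card ≤ T₂.card + 18 * NN ∧ E₂ ≤ E₃ ∧ W₃ < 17 * (P₀ * P₁) := by
    rcases hd₂ with hd₂ | hd₂
    · exact ⟨T₂, W₂, E₂, k₂, X₂, hS₂, by omega, le_rfl, hd₂⟩
    · exact chainI_top par NN T₂ W₂ E₂ k₂ X₂ hS₂ hd₂ (by omega)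
  obtain ⟨T₃, W₃, E₃, k₃, X₃, hS₃, hc₃, hE₃, hW₃⟩ := hstep3
  -- second phase
  set β₀ := Ebound I + 5 with hβ₀
  have hW₃β : W₃ < 2 ^ β₀ := by
    have h1 : 2 ^ β₀ = 2 ^ Ebound I * 32 := by rw [hβ₀, pow_add]; norm_num
    omega
  have hSII : SII P₀ P₁ F₀ B L target T₃ W₃ E₃ (phi L β₀ + 1) β₀ := by
    refine ⟨hS₃.two_le, fun n hn => OldI.toII par.one₀ (hS₃.old n hn), hS₃.sum_eq, hW₃β,
      Nat.lt_succ_self _, ?_⟩
    have := phi_le L β₀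
    have := hS₃.hB
    omega
  have hβ₀N : β₀ ≤ 2 * L + 2 + NN * (L / 21) := by
    have h1 : (A + 1) * (2 ^ 265 * X) = A * (2 ^ 265 * X) + 2 ^ 265 * X := by ring
    have h2 : 2 ^ 12 * X ≤ 2 ^ 265 * X := Nat.mul_le_mul_right _ (by norm_num)
    have h3 : 2 ^ 12 * X = 4096 * X := by norm_num
    rw [hβ₀, hEb]
    omega
  obtain ⟨T₄, W₄, k₄, β₄, hS₄, hc₄, hβ₄⟩ :=
    chainII_top par hl₀ (by omega) E₃ NN T₃ W₃ (phi L β₀ + 1) β₀ hSII hβ₀N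
  have hpot2 : β₄ * 40 ^ (29 * (I + 8)) ≤ (2 * l₀ + 2) * 41 ^ (29 * (I + 8)) := by
    have h1 := pow_ratio_40 (I + 8)
    have h2 : β₄ ≤ (2 * l₀ + 2) * 2 ^ (I + 8) := by
      have h3 : 2 * 2 ^ (I + 8) ≤ (2 * l₀ + 2) * 2 ^ (I + 8) :=
        Nat.mul_le_mul_right _ (by omega)
      omega
    calc β₄ * 40 ^ (29 * (I + 8)) ≤ ((2 * l₀ + 2) * 2 ^ (I + 8)) * 40 ^ (29 * (I + 8)) :=
          Nat.mul_le_mul_right _ h2
      _ = (2 * l₀ + 2) * (40 ^ (29 * (I + 8)) * 2 ^ (I + 8)) := by ring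
      _ ≤ _ := Nat.mul_le_mul_left _ h1
  obtain ⟨T₅, W₅, k₅, β₅, hS₅, hc₅, hW₅⟩ :=
    chainII_bot par hl₀ E₃ (29 * (I + 8)) T₄ W₄ k₄ β₄ hS₄ hβ₄ hpot2
  -- counting
  have hcard : T₅.card ≤ KK I l₀ := by
    unfold KK
    rw [← hNN]
    omega
  have hIX : I + 8 ≤ X := by
    have h1 : I - 1 < 2 ^ (I - 1) := Nat.lt_two_pow_self
    have h0 : I - 1 + 1 = I := by omega
    have h2 : X = 2 * 2 ^ (I - 1) := by
      rw [hX, ← pow_succ', h0]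
    omega
  have hE₃big : 2 * T₅.card + 2 + (2 * l₀ + 2) ≤ E₃ := by
    have h1 : 2 * KK I l₀ + 2 + (2 * l₀ + 2) ≤ A * (2 ^ 265 * X) := by
      set u := A * X with hu
      have h2 : A * (2 ^ 265 * X) = 2 ^ 265 * u := by rw [hu]; ring
      rw [h2]
      have h3 : X ≤ u := Nat.le_mul_of_pos_left _ (by omega)
      have h4 : 2 ^ 1040 * A ≤ u := by
        rw [hu, mul_comm]
        exact Nat.mul_le_mul_left _ hXbig
      unfold KK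
      omega
    omega
  obtain ⟨S, hS1, hS2, hS3⟩ := tail (par.odd₀.mul par.odd₁)
    (by
      have h1 : 1 * 1 < P₀ * P₁ := Nat.mul_lt_mul'' par.one₀ par.one₁
      omega)
    hS₅.two_le hS₅.sum_eq hW₅ hE₃big
  exact ⟨S, hS1, hS2, by omega⟩

set_option maxHeartbeats 1000000 in
set_option maxRecDepth 100000 in
/-- The algorithm: every fraction with denominator below a doubly exponential bound in `I`
has an Egyptian expansion with `O(I)` terms. -/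
theorem alg_main (I : ℕ) (hI : 1040 ≤ I) (a b : ℕ) (ha : 1 ≤ a) (hab : a < b)
    (hb : b ≤ 2 ^ (2 ^ (I + 3))) :
    ∃ S : Finset ℕ, (∀ n ∈ S, 2 ≤ n) ∧ ∑ n ∈ S, (1 : ℚ) / (n : ℚ) = (a : ℚ) / (b : ℚ) ∧
      S.card ≤ 2 ^ 1040 * (I + 1) := by
  obtain ⟨l₀, hl₀, hl₀le⟩ : ∃ l₀ : ℕ, 2 ^ 1036 ≤ l₀ ∧ l₀ ≤ 2 ^ 1036 := ⟨_, le_rfl, le_rfl⟩
  -- reduce the fraction
  have hb0 : 0 < b := by omega
  set g := Nat.gcd a b with hg
  have hg0 : 0 < g := Nat.gcd_pos_of_pos_right _ hb0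
  set a' := a / g with ha'
  set b' := b / g with hb'
  have hcop : Nat.Coprime a' b' := Nat.coprime_div_gcd_div_gcd hg0
  have haeq : a = a' * g := (Nat.div_mul_cancel (Nat.gcd_dvd_left _ _)).symm
  have hbeq : b = b' * g := (Nat.div_mul_cancel (Nat.gcd_dvd_right _ _)).symm
  have hlt : a' < b' := by
    rw [haeq, hbeq] at hab
    exact Nat.lt_of_mul_lt_mul_right hab
  have ha'1 : 1 ≤ a' := by
    rcases Nat.eq_zero_or_pos a' with h | h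
    · rw [h, zero_mul] at haeq
      omega
    · exact h
  have hb'le : b' ≤ b := Nat.div_le_self _ _
  have htarget : (a' : ℚ) / (b' : ℚ) = (a : ℚ) / (b : ℚ) := by
    have hgq : (g : ℚ) ≠ 0 := by positivity
    have hbq : (b' : ℚ) ≠ 0 := by
      have : b' ≠ 0 := by omega
      exact_mod_cast this
    rw [haeq, hbeq]
    push_cast
    field_simp
  rw [← htarget]
  -- parameters
  set P₀ := PT 0 I with hP₀
  set P₁ := PT 1 I with hP₁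
  have h₀ : Odd P₀ := PT_odd (by omega) I
  have h₁ : Odd P₁ := PT_odd (by omega) I
  have one₀ : 1 < P₀ := PT_one_lt (by omega) I
  have one₁ : 1 < P₁ := PT_one_lt (by omega) I
  have hcopP : Nat.Coprime P₀ P₁ := PT_coprime I
  have hPle : P₀ * P₁ ≤ 2 ^ Ebound I := PT_mul_le I
  have hPP : 0 < P₀ * P₁ := Nat.mul_pos (by omega) (by omega)
  set X := 2 ^ I with hX
  have hXbig : 2 ^ 1040 ≤ X := Nat.pow_le_pow_right (by norm_num) hI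
  have hp8 : 2 ^ (I + 8) = 256 * X := by rw [pow_add]; norm_num; ring
  have hp9 : 2 ^ (I + 9) = 512 * X := by rw [pow_add]; norm_num; ring
  have hp3 : 2 ^ (I + 3) = 8 * X := by rw [pow_add]; norm_num; ring
  set L₀ := 2 ^ (I + 8) - 2 with hL₀
  set L := L₀ - 2 with hL
  have hL₀big : 2 ^ 1036 ≤ L₀ := by
    have : 2 ^ 1040 = 16 * 2 ^ 1036 := by norm_num
    omega
  have hLbig : 2 ^ 1036 ≤ L := by
    have : 2 ^ 1040 = 16 * 2 ^ 1036 := by norm_num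
    omega
  have hbL : b' ≤ 2 ^ (L₀ / 21) := by
    refine hb'le.trans (hb.trans (Nat.pow_le_pow_right (by norm_num) ?_))
    rw [Nat.le_div_iff_mul_le (by norm_num)]
    omega
  set E₀ := Ebound I + 5 + 2 * L₀ with hE₀
  have hC : CoverProp P₀ P₁ L₀ := coverProp_PT I
  obtain ⟨q₀, T₀, W₀, hq1, hqodd, hbq, hT2, hcl, hsum, hW, hcard⟩ :=
    farey hC h₀ h₁ one₀ one₁ hcopP hL₀big a' b' E₀ ha'1 hlt hcop hbL (by omega)
  have par : AlgPar P₀ P₁ L₀ L (b' * q₀) (2 * L₀) := by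
    refine ⟨hC, by omega, hLbig, h₀, h₁, one₀, one₁, hcopP, ?_, hbq⟩
    intro k q hq hqL heq
    have h1 : q₀ ∣ 2 ^ k * q := ⟨b', by rw [heq]; ring⟩
    have h2 : Nat.Coprime q₀ (2 ^ k) := Nat.Coprime.pow_right k (Odd.coprime_two_right hqodd)
    have h3 : q₀ ∣ q := h2.dvd_of_dvd_mul_left h1
    have h4 := Nat.le_of_dvd hq h3
    have h5 : L + 2 = L₀ := by omega
    rw [h5] at hqL
    omega
  have hPPq : ((P₀ * P₁ : ℕ) : ℚ) ≠ 0 := by exact_mod_cast hPP.ne'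
  have hsum' : ∑ n ∈ T₀, (1 : ℚ) / (n : ℚ)
      + ((2 * W₀ : ℕ) : ℚ) / (2 ^ (E₀ + 1) * ((P₀ * P₁ : ℕ) : ℚ)) = (a' : ℚ) / (b' : ℚ) := by
    have hfrac : ((2 * W₀ : ℕ) : ℚ) / (2 ^ (E₀ + 1) * ((P₀ * P₁ : ℕ) : ℚ))
        = (W₀ : ℚ) / (2 ^ E₀ * ((P₀ * P₁ : ℕ) : ℚ)) := by
      rw [pow_succ]
      generalize ((P₀ * P₁ : ℕ) : ℚ) = Q at hPPq
      have h2 : (2 : ℚ) ^ E₀ ≠ 0 := pow_ne_zero _ (by norm_num)
      push_cast
      field_simp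
    rw [hfrac]
    exact hsum
  have hW' : 2 * W₀ < 2 ^ (E₀ + 1) * (P₀ * P₁) := by
    rw [pow_succ]
    calc 2 * W₀ < 2 * (2 ^ E₀ * (P₀ * P₁)) := Nat.mul_lt_mul_of_pos_left hW (by norm_num)
      _ = 2 ^ E₀ * 2 * (P₀ * P₁) := by ring
  obtain ⟨T₁, W₁, hS₁, hT₁⟩ := head par (l₀ + 1) hT2 hcl hsum' hW' (by omega)
  obtain ⟨S, hS1, hS2, hS3⟩ := phases (I := I) (l₀ := l₀) par hl₀ hl₀le hI (by omega) (by omega) hPle
    (by omega) (by omega) hS₁ (by omega)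
  refine ⟨S, hS1, hS2, hS3.trans ?_⟩
  unfold KK
  omega

end Crest.Agent.Egy
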