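import Crest.Agent.Lib.Egy.Fourier
import Mathlib.Analysis.SpecificLimits.Basic
import Mathlib.Analysis.SpecialFunctions.Pow.Real
import Mathlib.Analysis.SpecialFunctions.Sqrt
import Mathlib.Algebra.Order.Field.Basic
import Mathlib.Combinatorics.Enumerative.DoubleCounting
import Mathlib.Data.Nat.Count
import Mathlib.Data.Int.CardIntervalMod

/-!
# Rough divisors, collision counts, averaging over arithmetic progressions
-/

set_option autoImplicit false

namespace Crest.Agent.Egy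

open Finset

/-- `t` is `z`-rough: every prime factor of `t` exceeds `z`. -/
def Rough (z t : ℕ) : Prop := ∀ p, p.Prime → p ∣ t → z < p

lemma Rough.of_dvd {z t u : ℕ} (h : Rough z t) (hu : u ∣ t) : Rough z u :=
  fun p hp hpu => h p hp (hpu.trans hu)

/-- A number `m < z ^ n` has at most `2 ^ n` rough divisors. -/
theorem card_rough_le (z : ℕ) (n : ℕ) : ∀ (m : ℕ) (Ts : Finset ℕ), 1 ≤ m → m < z ^ n →
    (∀ t ∈ Ts, Rough z t ∧ t ∣ m) → Ts.card ≤ 2 ^ n := by
  induction n with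
  | zero =>
    intro m Ts h1 h2 _
    simp at h2
    omega
  | succ n ih =>
    intro m Ts h1 h2 hTs
    by_cases hex : ∃ p, p.Prime ∧ p ∣ m ∧ z < p
    · obtain ⟨p, hp, hpm, hzp⟩ := hex
      obtain ⟨m₁, rfl⟩ := hpm
      have hm₁ : 1 ≤ m₁ := by
        rcases Nat.eq_zero_or_pos m₁ with h | h
        · subst h; simp at h1
        · exact h
      have hlt : m₁ < z ^ n := by
        by_contra hcon
        push Not at hcon
        have : z ^ (n + 1) ≤ p * m₁ := by
          rw [pow_succ, mul_comm]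
          exact Nat.mul_le_mul hzp.le hcon
        omega
      classical
      have hsplit := Finset.card_filter_add_card_filter_not (s := Ts) (fun t => p ∣ t)
      have h3 : (Ts.filter (fun t => ¬ p ∣ t)).card ≤ 2 ^ n := by
        apply ih m₁ _ hm₁ hlt
        intro t ht
        obtain ⟨ht1, ht2⟩ := Finset.mem_filter.mp ht
        obtain ⟨h4, h5⟩ := hTs t ht1
        refine ⟨h4, ?_⟩
        exact ((Nat.Prime.coprime_iff_not_dvd hp).mpr ht2).symm.dvd_of_dvd_mul_left h5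
      have h4 : (Ts.filter (fun t => p ∣ t)).card ≤ 2 ^ n := by
        have hinj : Set.InjOn (fun t => t / p) (Ts.filter (fun t => p ∣ t) : Finset ℕ) := by
          intro x hx y hy hxy
          have hx' := (Finset.mem_filter.mp hx).2
          have hy' := (Finset.mem_filter.mp hy).2
          simp only at hxy
          rw [← Nat.div_mul_cancel hx', ← Nat.div_mul_cancel hy', hxy]
        rw [← Finset.card_image_of_injOn hinj]
        apply ih m₁ _ hm₁ hlt
        intro u hu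
        obtain ⟨t, ht, rfl⟩ := Finset.mem_image.mp hu
        obtain ⟨ht1, ht2⟩ := Finset.mem_filter.mp ht
        obtain ⟨h4, h5⟩ := hTs t ht1
        have h6 : t / p ∣ t := Nat.div_dvd_of_dvd ht2
        refine ⟨h4.of_dvd h6, ?_⟩
        obtain ⟨v, rfl⟩ := ht2
        rw [Nat.mul_div_cancel_left _ hp.pos]
        exact (Nat.mul_dvd_mul_iff_left hp.pos).mp h5
      rw [pow_succ]
      omega
    · have h3 : Ts ⊆ {1} := by
        intro t ht
        obtain ⟨h4, h5⟩ := hTs t ht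
        rw [Finset.mem_singleton]
        by_contra hne
        obtain ⟨p, hp, hpt⟩ := Nat.exists_prime_and_dvd hne
        exact hex ⟨p, hp, hpt.trans h5, h4 p hp hpt⟩
      have := Finset.card_le_card h3
      simp only [Finset.card_singleton] at this
      have : 1 ≤ 2 ^ (n + 1) := Nat.one_le_two_pow
      omega

/-- number of ordered pairs of distinct elements of `A` congruent modulo `t`. -/
def collOff (A : Finset ℕ) (t : ℕ) : ℕ :=
  ((A ×ˢ A).filter (fun p => p.1 ≠ p.2 ∧ (p.1 : ZMod t) = (p.2 : ZMod t))).card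

lemma collCount_eq (A : Finset ℕ) (t : ℕ) : collCount A t = A.card + collOff A t := by
  unfold collCount collOff
  rw [← Finset.card_filter_add_card_filter_not (s := (A ×ˢ A).filter
    (fun p : ℕ × ℕ => (p.1 : ZMod t) = (p.2 : ZMod t))) (fun p => p.1 = p.2)]
  congr 1
  · rw [← Finset.card_image_of_injective A (f := fun a : ℕ => (a, a)) (fun x y h => by
      simpa using congrArg Prod.fst h)]
    congr 1
    ext ⟨a, b⟩
    simp only [Finset.mem_filter, Finset.mem_product, Finset.mem_image, Prod.mk.injEq]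
    constructor
    · rintro ⟨⟨⟨h1, _⟩, _⟩, rfl⟩
      exact ⟨a, h1, rfl, rfl⟩
    · rintro ⟨c, hc, rfl, rfl⟩
      exact ⟨⟨⟨hc, hc⟩, rfl⟩, rfl⟩
  · congr 1
    ext ⟨a, b⟩
    simp only [Finset.mem_filter, Finset.mem_product]
    tauto

/-- Double counting: collisions summed over rough moduli. -/
theorem sum_collOff_le (A Ts : Finset ℕ) (z n : ℕ) (hrough : ∀ t ∈ Ts, Rough z t)
    (hbound : ∀ a ∈ A, a < z ^ n) :
    ∑ t ∈ Ts, collOff A t ≤ A.card ^ 2 * 2 ^ n := by
  classical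
  have h1 : ∑ t ∈ Ts, collOff A t
      = ∑ t ∈ Ts, (((A ×ˢ A).filter (fun p => p.1 ≠ p.2)).filter
          (fun p => (p.1 : ZMod t) = (p.2 : ZMod t))).card := by
    refine Finset.sum_congr rfl fun t _ => ?_
    unfold collOff
    rw [Finset.filter_filter]
  rw [h1]
  have h2 := Finset.sum_card_bipartiteAbove_eq_sum_card_bipartiteBelow
    (s := Ts) (t := (A ×ˢ A).filter (fun p => p.1 ≠ p.2))
    (fun (t : ℕ) (p : ℕ × ℕ) => (p.1 : ZMod t) = (p.2 : ZMod t))
  simp only [Finset.bipartiteAbove, Finset.bipartiteBelow] at h2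
  rw [h2]
  have h3 : ∀ p ∈ (A ×ˢ A).filter (fun p : ℕ × ℕ => p.1 ≠ p.2),
      (Ts.filter (fun t : ℕ => (p.1 : ZMod t) = (p.2 : ZMod t))).card ≤ 2 ^ n := by
    rintro ⟨a, b⟩ hp
    obtain ⟨hp1, hp2⟩ := Finset.mem_filter.mp hp
    obtain ⟨ha, hb⟩ := Finset.mem_product.mp hp1
    simp only at ha hb hp2 ⊢
    have hab := hbound a ha
    have hbb := hbound b hb
    rcases lt_or_gt_of_ne hp2 with hlt | hlt
    · apply card_rough_le z n (b - a) _ (by omega) (by omega)
      intro t ht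
      obtain ⟨ht1, ht2⟩ := Finset.mem_filter.mp ht
      refine ⟨hrough t ht1, ?_⟩
      have := (ZMod.natCast_eq_natCast_iff a b t).mp ht2
      exact (Nat.modEq_iff_dvd' hlt.le).mp this
    · apply card_rough_le z n (a - b) _ (by omega) (by omega)
      intro t ht
      obtain ⟨ht1, ht2⟩ := Finset.mem_filter.mp ht
      refine ⟨hrough t ht1, ?_⟩
      have := (ZMod.natCast_eq_natCast_iff b a t).mp ht2.symm
      exact (Nat.modEq_iff_dvd' hlt.le).mp this
  refine (Finset.sum_le_sum h3).trans ?_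
  rw [Finset.sum_const, smul_eq_mul]
  apply Nat.mul_le_mul_right
  refine (Finset.card_filter_le _ _).trans ?_
  rw [Finset.card_product, sq]

/-- the fourth root of `t` -/
noncomputable def rr (t : ℕ) : ℝ := √(√(t : ℝ))

lemma rr_nonneg (t : ℕ) : 0 ≤ rr t := Real.sqrt_nonneg _

lemma rr_pow_four (t : ℕ) : rr t ^ 4 = t := by
  unfold rr
  have h0 : (0 : ℝ) ≤ √(t : ℝ) := Real.sqrt_nonneg _
  have h1 : (√(√(t : ℝ))) ^ 2 = √(t : ℝ) := Real.sq_sqrt h0
  have h2 : (√(t : ℝ)) ^ 2 = (t : ℝ) := Real.sq_sqrt (Nat.cast_nonneg t)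
  calc (√(√(t : ℝ))) ^ 4 = ((√(√(t : ℝ))) ^ 2) ^ 2 := by ring
    _ = (t : ℝ) := by rw [h1, h2]

lemma rr_pos {t : ℕ} (ht : 0 < t) : 0 < rr t := by
  unfold rr
  apply Real.sqrt_pos.mpr
  apply Real.sqrt_pos.mpr
  exact_mod_cast ht

lemma le_rr_of_pow_le {ρ : ℝ} {t : ℕ} (h : ρ ^ 4 ≤ t) : ρ ≤ rr t := by
  have := rr_pow_four t
  rw [← this] at h
  exact le_of_pow_le_pow_left₀ (by norm_num) (rr_nonneg t) h

lemma rr_le_of_le_pow {ρ : ℝ} {t : ℕ} (hρ : 0 ≤ ρ) (h : (t : ℝ) ≤ ρ ^ 4) : rr t ≤ ρ := by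
  have := rr_pow_four t
  rw [← this] at h
  exact le_of_pow_le_pow_left₀ (by norm_num) hρ h

/-- `t` is bad for `A` when `A` has too many collisions modulo `t`. -/
def Bad (A : Finset ℕ) (t : ℕ) : Prop :=
  (A.card : ℝ) ^ 2 ≤ 2 * collOff A t * rr t ^ 3

/-- Sum of the averaging weights over bad moduli. -/
theorem bad_sum_bound (A Ts : Finset ℕ) (z n : ℕ) (N ρ ρ' : ℝ) [DecidablePred (Bad A)]
    (hN : 0 ≤ N) (hρ : 0 < ρ) (hρ0 : 0 ≤ ρ') (hA : A.Nonempty)
    (hrough : ∀ t ∈ Ts, Rough z t) (hbound : ∀ a ∈ A, a < z ^ n)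
    (h1 : ∀ t ∈ Ts, ρ ≤ rr t) (h2 : ∀ t ∈ Ts, rr t ≤ ρ') :
    ∑ t ∈ Ts.filter (Bad A), (N / t + 1) ≤ 2 ^ n * (2 * N / ρ + 2 * ρ' ^ 3) := by
  have hA2 : (0 : ℝ) < (A.card : ℝ) ^ 2 := by
    have : 0 < A.card := hA.card_pos
    positivity
  set X : ℝ := 2 * N / ρ + 2 * ρ' ^ 3 with hX
  have hρ' : ∀ t ∈ Ts, 0 < rr t := fun t ht => hρ.trans_le (h1 t ht)
  have hstep : ∀ t ∈ Ts.filter (Bad A), N / t + 1 ≤ (collOff A t : ℝ) / (A.card : ℝ) ^ 2 * X := by
    intro t ht
    obtain ⟨ht1, htbad⟩ := Finset.mem_filter.mp ht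
    have hr := hρ' t ht1
    have hr4 := rr_pow_four t
    set r := rr t with hrdef
    have htpos : (0 : ℝ) < t := by rw [← hr4]; positivity
    have hrle : r ≤ ρ' := h2 t ht1
    have hrge : ρ ≤ r := h1 t ht1
    have hbadr : (A.card : ℝ) ^ 2 ≤ 2 * collOff A t * r ^ 3 := htbad
    have h3 : N / t + 1 = (2 * N / r + 2 * r ^ 3) * (1 / (2 * r ^ 3)) := by
      rw [← hr4]
      field_simp
    have h4 : (2 * N / r + 2 * r ^ 3) ≤ X := by
      rw [hX]
      have h5 : 2 * N / r ≤ 2 * N / ρ := by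
        apply div_le_div_of_nonneg_left (by positivity) hρ hrge
      have h6 : r ^ 3 ≤ ρ' ^ 3 := pow_le_pow_left₀ hr.le hrle 3
      linarith
    have h7 : 1 / (2 * r ^ 3) ≤ (collOff A t : ℝ) / (A.card : ℝ) ^ 2 := by
      rw [div_le_div_iff₀ (by positivity) hA2]
      linarith
    have hXpos : 0 ≤ 2 * N / r + 2 * r ^ 3 := by positivity
    rw [h3]
    calc (2 * N / r + 2 * r ^ 3) * (1 / (2 * r ^ 3))
        ≤ (2 * N / r + 2 * r ^ 3) * ((collOff A t : ℝ) / (A.card : ℝ) ^ 2) := by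
          exact mul_le_mul_of_nonneg_left h7 hXpos
      _ ≤ X * ((collOff A t : ℝ) / (A.card : ℝ) ^ 2) := by
          exact mul_le_mul_of_nonneg_right h4 (by positivity)
      _ = _ := by ring
  have hXnn : 0 ≤ X := by
    rw [hX]
    positivity
  have h8 : ∑ t ∈ Ts, (collOff A t : ℝ) ≤ (A.card : ℝ) ^ 2 * 2 ^ n := by
    exact_mod_cast sum_collOff_le A Ts z n hrough hbound
  calc ∑ t ∈ Ts.filter (Bad A), (N / t + 1)
      ≤ ∑ t ∈ Ts.filter (Bad A), (collOff A t : ℝ) / (A.card : ℝ) ^ 2 * X :=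
        Finset.sum_le_sum hstep
    _ ≤ ∑ t ∈ Ts, (collOff A t : ℝ) / (A.card : ℝ) ^ 2 * X := by
        apply Finset.sum_le_sum_of_subset_of_nonneg (Finset.filter_subset _ _)
        intro t _ _
        positivity
    _ = (∑ t ∈ Ts, (collOff A t : ℝ)) / (A.card : ℝ) ^ 2 * X := by
        rw [← Finset.sum_mul, Finset.sum_div]
    _ ≤ ((A.card : ℝ) ^ 2 * 2 ^ n) / (A.card : ℝ) ^ 2 * X := by
        gcongr
    _ = 2 ^ n * X := by
        field_simp

/-- Counting elements of an arithmetic progression divisible by `t`. -/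
lemma ap_count (c d N t : ℕ) (ht : 0 < t)
    (hcop : ∀ s < N, Nat.Coprime (c + d * s) d) :
    ((Finset.range N).filter (fun s => t ∣ c + d * s)).card ≤ N / t + 1 := by
  classical
  rcases ((Finset.range N).filter (fun s => t ∣ c + d * s)).eq_empty_or_nonempty with h | ⟨s₀, hs₀⟩
  · rw [h]; simp
  · obtain ⟨hs₀1, hs₀2⟩ := Finset.mem_filter.mp hs₀
    have hs₀N := Finset.mem_range.mp hs₀1
    have htd : Nat.Coprime t d := (hcop s₀ hs₀N).coprime_dvd_left hs₀2
    have hsub : (Finset.range N).filter (fun s => t ∣ c + d * s)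
        ⊆ (Finset.range N).filter (fun s => s ≡ s₀ [MOD t]) := by
      intro s hs
      obtain ⟨hs1, hs2⟩ := Finset.mem_filter.mp hs
      refine Finset.mem_filter.mpr ⟨hs1, ?_⟩
      have h1 : c + d * s ≡ c + d * s₀ [MOD t] :=
        ((Nat.modEq_zero_iff_dvd.mpr hs2).trans (Nat.modEq_zero_iff_dvd.mpr hs₀2).symm)
      have h2 : d * s ≡ d * s₀ [MOD t] := Nat.ModEq.add_left_cancel' c h1
      exact Nat.ModEq.cancel_left_of_coprime htd h2
    refine (Finset.card_le_card hsub).trans ?_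
    rw [← Nat.count_eq_card_filter_range, Nat.count_modEq_card _ ht]
    split_ifs <;> omega

/-- Avoiding a family of divisors in an arithmetic progression. -/
theorem exists_avoid {ι : Type*} [DecidableEq ι] (c d N : ℕ) (Is : Finset ι) (B : ι → Finset ℕ)
    (hpos : ∀ i ∈ Is, ∀ t ∈ B i, 0 < t)
    (hcop : ∀ s < N, Nat.Coprime (c + d * s) d)
    (hsum : ∑ i ∈ Is, ∑ t ∈ B i, ((N : ℝ) / t + 1) < N) :
    ∃ s < N, ∀ i ∈ Is, ∀ t ∈ B i, ¬ t ∣ c + d * s := by
  classical
  set Z : Finset ℕ := Is.biUnion fun i => (B i).biUnion fun t =>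
    (Finset.range N).filter (fun s => t ∣ c + d * s) with hZ
  have hcard : (Z.card : ℝ) < N := by
    refine lt_of_le_of_lt ?_ hsum
    have h1 : Z.card ≤ ∑ i ∈ Is, ((B i).biUnion fun t =>
        (Finset.range N).filter (fun s => t ∣ c + d * s)).card := Finset.card_biUnion_le
    have h2 : ∀ i ∈ Is, (((B i).biUnion fun t =>
        (Finset.range N).filter (fun s => t ∣ c + d * s)).card : ℝ)
        ≤ ∑ t ∈ B i, ((N : ℝ) / t + 1) := by
      intro i hi
      have h3 : ((B i).biUnion fun t =>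
        (Finset.range N).filter (fun s => t ∣ c + d * s)).card
          ≤ ∑ t ∈ B i, ((Finset.range N).filter (fun s => t ∣ c + d * s)).card :=
        Finset.card_biUnion_le
      have h4 : (((B i).biUnion fun t =>
        (Finset.range N).filter (fun s => t ∣ c + d * s)).card : ℝ)
          ≤ ∑ t ∈ B i, (((Finset.range N).filter (fun s => t ∣ c + d * s)).card : ℝ) := by
        exact_mod_cast h3
      refine h4.trans (Finset.sum_le_sum fun t ht => ?_)
      have h5 := ap_count c d N t (hpos i hi t ht) hcop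
      have h6 : (((Finset.range N).filter (fun s => t ∣ c + d * s)).card : ℝ) ≤ ((N / t : ℕ) : ℝ) + 1 := by
        exact_mod_cast h5
      have h7 : ((N / t : ℕ) : ℝ) ≤ (N : ℝ) / t := Nat.cast_div_le
      linarith
    calc (Z.card : ℝ) ≤ ((∑ i ∈ Is, ((B i).biUnion fun t =>
        (Finset.range N).filter (fun s => t ∣ c + d * s)).card : ℕ) : ℝ) := by exact_mod_cast h1
      _ = ∑ i ∈ Is, (((B i).biUnion fun t =>
        (Finset.range N).filter (fun s => t ∣ c + d * s)).card : ℝ) := by push_cast; rfl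
      _ ≤ _ := Finset.sum_le_sum h2
  have hcard' : Z.card < (Finset.range N).card := by
    rw [Finset.card_range]
    exact_mod_cast hcard
  obtain ⟨s, hs1, hs2⟩ := Finset.exists_mem_notMem_of_card_lt_card hcard'
  refine ⟨s, Finset.mem_range.mp hs1, fun i hi t ht hdvd => hs2 ?_⟩
  rw [hZ]
  refine Finset.mem_biUnion.mpr ⟨i, hi, Finset.mem_biUnion.mpr ⟨t, ht, ?_⟩⟩
  exact Finset.mem_filter.mpr ⟨hs1, hdvd⟩

/-- From "not bad" to the bilinear saving. -/
theorem good_bilinear (t : ℕ) [NeZero t] (A B : Finset ℕ) (hA : ¬ Bad A t) (hB : ¬ Bad B t)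
    (hAc : 2 * rr t ^ 3 ≤ A.card) (hBc : 2 * rr t ^ 3 ≤ B.card)
    (c : ZMod t) (hc : IsUnit c) :
    ‖∑ a ∈ A, ∑ b ∈ B, (ZMod.stdAddChar (c * (a : ZMod t) * (b : ZMod t)) : ℂ)‖
      ≤ ((A.card : ℝ) * B.card) * (1 / rr t) := by
  have htpos : 0 < t := Nat.pos_of_ne_zero (NeZero.ne t)
  have hr := rr_pos htpos
  have hr4 := rr_pow_four t
  set r := rr t with hrdef
  have hmain := bilinear_bound t c hc A B
  rw [← hr4] at hmain
  have hCA : (collCount A t : ℝ) * r ^ 3 ≤ (A.card : ℝ) ^ 2 := by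
    rw [collCount_eq]
    have h1 : 2 * (collOff A t : ℝ) * r ^ 3 < (A.card : ℝ) ^ 2 := not_le.mp hA
    have h2 : (A.card : ℝ) * (2 * r ^ 3) ≤ (A.card : ℝ) * A.card :=
      mul_le_mul_of_nonneg_left hAc (by positivity)
    push_cast
    nlinarith
  have hCB : (collCount B t : ℝ) * r ^ 3 ≤ (B.card : ℝ) ^ 2 := by
    rw [collCount_eq]
    have h1 : 2 * (collOff B t : ℝ) * r ^ 3 < (B.card : ℝ) ^ 2 := not_le.mp hB
    have h2 : (B.card : ℝ) * (2 * r ^ 3) ≤ (B.card : ℝ) * B.card :=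
      mul_le_mul_of_nonneg_left hBc (by positivity)
    push_cast
    nlinarith
  have hfin : (‖∑ a ∈ A, ∑ b ∈ B, (ZMod.stdAddChar (c * (a : ZMod t) * (b : ZMod t)) : ℂ)‖ * r) ^ 2
      ≤ ((A.card : ℝ) * B.card) ^ 2 := by
    have h3 : (collCount A t : ℝ) * r ^ 3 * ((collCount B t : ℝ) * r ^ 3)
        ≤ (A.card : ℝ) ^ 2 * (B.card : ℝ) ^ 2 :=
      mul_le_mul hCA hCB (by positivity) (by positivity)
    calc (‖∑ a ∈ A, ∑ b ∈ B, (ZMod.stdAddChar (c * (a : ZMod t) * (b : ZMod t)) : ℂ)‖ * r) ^ 2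
        = ‖∑ a ∈ A, ∑ b ∈ B, (ZMod.stdAddChar (c * (a : ZMod t) * (b : ZMod t)) : ℂ)‖ ^ 2 * r ^ 2 := by
          ring
      _ ≤ r ^ 4 * collCount A t * collCount B t * r ^ 2 := by
          exact mul_le_mul_of_nonneg_right hmain (by positivity)
      _ = (collCount A t : ℝ) * r ^ 3 * ((collCount B t : ℝ) * r ^ 3) := by ring
      _ ≤ (A.card : ℝ) ^ 2 * (B.card : ℝ) ^ 2 := h3
      _ = _ := by ring
  have h9 := abs_le_of_sq_le_sq' hfin (by positivity)
  rw [mul_one_div, le_div_iff₀ hr]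
  exact h9.2

end Crest.Agent.Egy
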