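import Crest.Agent.Lib.Egy.Primes
import Crest.Agent.Lib.Egy.Rough
import Mathlib.Data.Nat.Choose.Bounds
import Mathlib.Data.Finset.Powerset
import Mathlib.Algebra.BigOperators.Associated

/-!
# Pools of primes and the sets built from them
-/

set_option autoImplicit false
set_option exponentiation.threshold 3000

namespace Crest.Agent.Egy

open Finset

/-- pool sizes -/
def nn (i : ℕ) : ℕ := 2 ^ (i + 257)

theorem nn_eq (i : ℕ) : nn i = 2 ^ (i + 257) := rfl

attribute [irreducible] nn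

lemma nn_pos (i : ℕ) : 0 < nn i := by rw [nn_eq]; exact Nat.two_pow_pos _

lemma nn_sq (i : ℕ) : nn i ^ 2 = 2 ^ (2 * i + 514) := by
  have h : (i + 257) * 2 = 2 * i + 514 := by omega
  rw [nn_eq, ← pow_mul, h]

lemma nn_large (i : ℕ) : 68 ≤ nn i := by
  rw [nn_eq]
  have : (2 : ℕ) ^ 7 ≤ 2 ^ (i + 257) := Nat.pow_le_pow_right (by norm_num) (by omega)
  have h2 : (68 : ℕ) ≤ 2 ^ 7 := by norm_num
  omega

/-- the index set of a pool -/
def idx (i j b : ℕ) : Finset ℕ :=
  Finset.Ico (nn i ^ 2 + (2 * j + b) * nn i) (nn i ^ 2 + (2 * j + b + 1) * nn i)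

lemma card_idx (i j b : ℕ) : (idx i j b).card = nn i := by
  unfold idx
  rw [Nat.card_Ico]
  have : (2 * j + b + 1) * nn i = (2 * j + b) * nn i + nn i := by ring
  omega

lemma idx_bounds {i j b k : ℕ} (hj : j < 34) (hb : b < 2) (hk : k ∈ idx i j b) :
    nn i ^ 2 ≤ k ∧ k < nn i ^ 2 + 68 * nn i := by
  unfold idx at hk
  obtain ⟨h1, h2⟩ := Finset.mem_Ico.mp hk
  constructor
  · omega
  · have : (2 * j + b + 1) * nn i ≤ 68 * nn i := Nat.mul_le_mul_right _ (by omega)
    omega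

lemma idx_lt {i j b k : ℕ} (hj : j < 34) (hb : b < 2) (hk : k ∈ idx i j b) :
    k < 2 ^ (2 * i + 515) := by
  have h := (idx_bounds hj hb hk).2
  have h1 : 68 * nn i ≤ nn i * nn i := Nat.mul_le_mul_right _ (nn_large i)
  have h2 : nn i ^ 2 = nn i * nn i := sq _
  have h3 := nn_sq i
  have h4 : (2 : ℕ) ^ (2 * i + 515) = 2 * 2 ^ (2 * i + 514) := by
    rw [show 2 * i + 515 = (2 * i + 514) + 1 by ring, pow_succ]; ring
  omega

lemma idx_pos {i j b k : ℕ} (hj : j < 34) (hb : b < 2) (hk : k ∈ idx i j b) : 1 ≤ k := by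
  have h := (idx_bounds hj hb hk).1
  have h2 : 0 < nn i ^ 2 := pow_pos (nn_pos i) 2
  omega

lemma pr_lt_idx {i j b k : ℕ} (hj : j < 34) (hb : b < 2) (hk : k ∈ idx i j b) :
    pr k < 2 ^ (4 * i + 1030) := by
  have h := pr_lt (2 * i + 515) (by omega) k (idx_lt hj hb hk)
  rwa [show 2 * (2 * i + 515) = 4 * i + 1030 by ring] at h

lemma le_pr_idx {i j b k : ℕ} (hj : j < 34) (hb : b < 2) (hk : k ∈ idx i j b) :
    2 ^ (2 * i + 514) ≤ pr k := by
  rw [← nn_sq]
  exact (idx_bounds hj hb hk).1.trans (le_pr k)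

/-- indices from different pools differ. -/
lemma idx_ne {i j b i' j' b' k k' : ℕ} (hj : j < 34) (hb : b < 2) (hj' : j' < 34) (hb' : b' < 2)
    (hk : k ∈ idx i j b) (hk' : k' ∈ idx i' j' b') (hjj : j ≠ j') : k ≠ k' := by
  have aux : ∀ {i i' j b j' b' k k' : ℕ}, j < 34 → b < 2 → j' < 34 → b' < 2 → k ∈ idx i j b →
      k' ∈ idx i' j' b' → i < i' → k < k' := by
    intro i i' j b j' b' k k' hj hb hj' hb' hk hk' hii
    have h1 := (idx_bounds hj hb hk).2
    have h2 := (idx_bounds hj' hb' hk').1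
    have h3 : 2 * nn i ≤ nn i' := by
      rw [nn_eq, nn_eq, ← pow_succ']
      exact Nat.pow_le_pow_right (by norm_num) (by omega)
    have h4 : (2 * nn i) ^ 2 ≤ nn i' ^ 2 := Nat.pow_le_pow_left h3 2
    have h5 : 68 * nn i ≤ nn i * nn i := Nat.mul_le_mul_right _ (nn_large i)
    have h6 : nn i ^ 2 = nn i * nn i := sq _
    have h7 : (2 * nn i) ^ 2 = 4 * (nn i * nn i) := by ring
    have h8 : 0 < nn i * nn i := Nat.mul_pos (nn_pos i) (nn_pos i)
    omega
  rcases lt_trichotomy i i' with h | h | h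
  · exact (aux hj hb hj' hb' hk hk' h).ne
  · subst h
    intro heq
    subst heq
    unfold idx at hk hk'
    obtain ⟨h1, h2⟩ := Finset.mem_Ico.mp hk
    obtain ⟨h3, h4⟩ := Finset.mem_Ico.mp hk'
    rcases lt_or_gt_of_ne hjj with hlt | hlt
    · have : (2 * j + b + 1) * nn i ≤ (2 * j' + b') * nn i := Nat.mul_le_mul_right _ (by omega)
      omega
    · have : (2 * j' + b' + 1) * nn i ≤ (2 * j + b) * nn i := Nat.mul_le_mul_right _ (by omega)
      omega
  · exact (aux hj' hb' hj hb hk' hk h).ne'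

/-- product of the primes with indices in `K`. -/
noncomputable def PK (K : Finset ℕ) : ℕ := ∏ k ∈ K, pr k

lemma PK_pos (K : Finset ℕ) : 0 < PK K := Finset.prod_pos fun k _ => (pr_prime k).pos

lemma PK_injective : Function.Injective PK := by
  intro U V h
  have key : ∀ U : Finset ℕ, (PK U).primeFactors = U.image pr := by
    intro U
    have h1 : PK U = ∏ p ∈ U.image pr, p := by
      rw [Finset.prod_image (fun x _ y _ hxy => pr_injective hxy)]
      rfl
    rw [h1]
    apply Nat.primeFactors_prod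
    intro p hp
    obtain ⟨k, _, rfl⟩ := Finset.mem_image.mp hp
    exact pr_prime k
  have h2 : U.image pr = V.image pr := by rw [← key, ← key, h]
  exact (Finset.image_injective pr_injective) h2

lemma PK_odd {K : Finset ℕ} (hK : ∀ k ∈ K, 1 ≤ k) : Odd (PK K) := by
  unfold PK
  classical
  induction K using Finset.induction_on with
  | empty => simp
  | insert a s ha ih =>
    rw [Finset.prod_insert ha]
    exact (pr_odd a (hK a (Finset.mem_insert_self _ _))).mul
      (ih fun k hk => hK k (Finset.mem_insert_of_mem hk))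

/-- The sets `A`: products of `2^i` primes from a pool. -/
noncomputable def AA (i j b : ℕ) : Finset ℕ := ((idx i j b).powersetCard (2 ^ i)).image PK

lemma card_AA (i j b : ℕ) : (AA i j b).card = (nn i).choose (2 ^ i) := by
  unfold AA
  rw [Finset.card_image_of_injective _ PK_injective, Finset.card_powersetCard, card_idx]

lemma card_AA_ge (i j b : ℕ) : 2 ^ (2 ^ (i + 8)) ≤ (AA i j b).card := by
  rw [card_AA]
  have h1 : (nn i + 1 - 2 ^ i) ^ (2 ^ i) ≤ (nn i).choose (2 ^ i) * (2 ^ i).factorial := by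
    have h := Nat.pow_le_choose (α := ℚ) (2 ^ i) (nn i)
    rw [div_le_iff₀ (by positivity)] at h
    exact_mod_cast h
  have h2 : (2 ^ i).factorial ≤ (2 ^ i) ^ (2 ^ i) := Nat.factorial_le_pow _
  have h3 : 2 ^ i * 2 ^ 256 ≤ nn i + 1 - 2 ^ i := by
    rw [nn_eq]
    have : (2 : ℕ) ^ (i + 257) = 2 ^ i * 2 ^ 256 + 2 ^ i * 2 ^ 256 := by
      rw [show i + 257 = i + 256 + 1 by ring, pow_succ, pow_add]; ring
    have h4 : 2 ^ i ≤ 2 ^ i * 2 ^ 256 := Nat.le_mul_of_pos_right _ (by positivity)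
    omega
  have h5 : (2 ^ i * 2 ^ 256) ^ (2 ^ i) ≤ (nn i + 1 - 2 ^ i) ^ (2 ^ i) :=
    Nat.pow_le_pow_left h3 _
  have h6 : (2 ^ i) ^ (2 ^ i) * (2 ^ 256) ^ (2 ^ i) ≤ (2 ^ i) ^ (2 ^ i) * (nn i).choose (2 ^ i) := by
    rw [← mul_pow]
    refine h5.trans (h1.trans ?_)
    rw [mul_comm]
    exact Nat.mul_le_mul_right _ h2
  have h7 := Nat.le_of_mul_le_mul_left h6 (by positivity)
  have h8 : (2 : ℕ) ^ (2 ^ (i + 8)) = (2 ^ 256) ^ (2 ^ i) := by
    rw [← pow_mul]
    congr 1
    rw [pow_add]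
    norm_num
    ring
  rw [h8]
  exact h7

lemma mem_AA {i j b a : ℕ} (ha : a ∈ AA i j b) :
    ∃ U ⊆ idx i j b, U.card = 2 ^ i ∧ a = PK U := by
  unfold AA at ha
  obtain ⟨U, hU, rfl⟩ := Finset.mem_image.mp ha
  obtain ⟨h1, h2⟩ := Finset.mem_powersetCard.mp hU
  exact ⟨U, h1, h2, rfl⟩

lemma AA_nonempty (i j b : ℕ) : (AA i j b).Nonempty := by
  rw [← Finset.card_pos]
  have h := card_AA_ge i j b
  have : 0 < 2 ^ (2 ^ (i + 8)) := by positivity
  omega

lemma AA_lt {i j b a : ℕ} (hj : j < 34) (hb : b < 2) (ha : a ∈ AA i j b) :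
    a < (2 ^ (4 * i + 1030)) ^ (2 ^ i) := by
  obtain ⟨U, hU, hc, rfl⟩ := mem_AA ha
  have h1 : PK U ≤ (2 ^ (4 * i + 1030) - 1) ^ U.card := by
    apply Finset.prod_le_pow_card
    intro k hk
    have := pr_lt_idx hj hb (hU hk)
    omega
  rw [hc] at h1
  refine lt_of_le_of_lt h1 ?_
  apply Nat.pow_lt_pow_left
  · have : 0 < 2 ^ (4 * i + 1030) := by positivity
    omega
  · positivity

lemma AA_dvd {i j b a : ℕ} (ha : a ∈ AA i j b) : a ∣ PK (idx i j b) := by
  obtain ⟨U, hU, _, rfl⟩ := mem_AA ha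
  exact Finset.prod_dvd_prod_of_subset _ _ _ hU

lemma AA_one_lt {i j b a : ℕ} (ha : a ∈ AA i j b) : 1 < a := by
  obtain ⟨U, hU, hc, rfl⟩ := mem_AA ha
  have hne : U.Nonempty := by
    rw [← Finset.card_pos, hc]
    positivity
  obtain ⟨k, hk⟩ := hne
  have h1 : pr k ∣ PK U := Finset.dvd_prod_of_mem _ hk
  have h2 := Nat.le_of_dvd (PK_pos U) h1
  have h3 := (pr_prime k).two_le
  omega

lemma AA_coprime {i j b a q : ℕ} (ha : a ∈ AA i j b) (hq : ∀ k ∈ idx i j b, ¬ pr k ∣ q) :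
    Nat.Coprime a q := by
  obtain ⟨U, hU, _, rfl⟩ := mem_AA ha
  apply Nat.Coprime.prod_left
  intro k hk
  exact (Nat.Prime.coprime_iff_not_dvd (pr_prime k)).mpr (hq k (hU hk))

/-- product sets at colour `j`. -/
noncomputable def XX (j n : ℕ) : Finset (List ℕ) :=
  prodSet (fun i => AA i j 0) (fun i => AA i j 1) n

/-- the product of all pool primes at colour `j` and levels below `n`. -/
noncomputable def PP (j : ℕ) : ℕ → ℕ
  | 0 => 1
  | n + 1 => PK (idx n j 0) * PK (idx n j 1) * PP j n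

lemma PP_pos (j n : ℕ) : 0 < PP j n := by
  induction n with
  | zero => simp [PP]
  | succ n ih => simp only [PP]; exact Nat.mul_pos (Nat.mul_pos (PK_pos _) (PK_pos _)) ih

lemma XX_nonempty (j n : ℕ) : (XX j n).Nonempty :=
  prodSet_nonempty _ _ (fun i => AA_nonempty i j 0) (fun i => AA_nonempty i j 1) n

lemma XX_succ_mem {j n : ℕ} {l : List ℕ} (hl : l ∈ XX j (n + 1)) :
    ∃ a ∈ AA n j 0, ∃ b ∈ AA n j 1, ∃ l' ∈ XX j n, l = a :: b :: l' :=
  (mem_prodSet_succ _ _ n l).mp hl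

lemma XX_dvd {j n : ℕ} {l : List ℕ} (hl : l ∈ XX j n) : l.prod ∣ PP j n := by
  induction n generalizing l with
  | zero =>
    simp only [XX, prodSet, Finset.mem_singleton] at hl
    subst hl
    simp [PP]
  | succ n ih =>
    obtain ⟨a, ha, b, hb, l', hl', rfl⟩ := XX_succ_mem hl
    simp only [List.prod_cons, PP]
    rw [← mul_assoc]
    exact mul_dvd_mul (mul_dvd_mul (AA_dvd ha) (AA_dvd hb)) (ih hl')

lemma XX_pos {j n : ℕ} {l : List ℕ} (hl : l ∈ XX j n) : 0 < l.prod :=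
  Nat.pos_of_dvd_of_pos (XX_dvd hl) (PP_pos j n)

lemma XX_one_lt {j n : ℕ} {l : List ℕ} (hl : l ∈ XX j (n + 1)) : 1 < l.prod := by
  obtain ⟨a, ha, b, hb, l', hl', rfl⟩ := XX_succ_mem hl
  simp only [List.prod_cons]
  have h1 := AA_one_lt ha
  have h2 : 0 < b * l'.prod := Nat.mul_pos (by have := AA_one_lt hb; omega) (XX_pos hl')
  nlinarith

lemma PP_coprime_of {j n q : ℕ} (h : ∀ i < n, ∀ b < 2, ∀ k ∈ idx i j b, ¬ pr k ∣ q) :
    Nat.Coprime (PP j n) q := by
  induction n with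
  | zero => simp [PP]
  | succ n ih =>
    simp only [PP]
    refine Nat.Coprime.mul_left (Nat.Coprime.mul_left ?_ ?_) (ih fun i hi => h i (by omega))
    · apply Nat.Coprime.prod_left
      intro k hk
      exact (Nat.Prime.coprime_iff_not_dvd (pr_prime k)).mpr (h n (by omega) 0 (by omega) k hk)
    · apply Nat.Coprime.prod_left
      intro k hk
      exact (Nat.Prime.coprime_iff_not_dvd (pr_prime k)).mpr (h n (by omega) 1 (by omega) k hk)

lemma PK_coprime {K K' : Finset ℕ} (h : ∀ k ∈ K, ∀ k' ∈ K', k ≠ k') :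
    Nat.Coprime (PK K) (PK K') := by
  apply Nat.Coprime.prod_left
  intro k hk
  apply Nat.Coprime.prod_right
  intro k' hk'
  exact (Nat.coprime_primes (pr_prime k) (pr_prime k')).mpr
    (fun he => h k hk k' hk' (pr_injective he))

lemma PP_coprime {j j' n n' : ℕ} (hj : j < 34) (hj' : j' < 34) (hjj : j ≠ j') :
    Nat.Coprime (PP j n) (PP j' n') := by
  have hK : ∀ i b i' b', b < 2 → b' < 2 → Nat.Coprime (PK (idx i j b)) (PK (idx i' j' b')) := by
    intro i b i' b' hb hb'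
    apply PK_coprime
    intro k hk k' hk'
    exact idx_ne hj hb hj' hb' hk hk' hjj
  induction n with
  | zero => simp [PP]
  | succ n ih =>
    simp only [PP]
    refine Nat.Coprime.mul_left (Nat.Coprime.mul_left ?_ ?_) ih
    · clear ih
      induction n' with
      | zero => simp [PP]
      | succ n' ih' =>
        simp only [PP]
        exact Nat.Coprime.mul_right (Nat.Coprime.mul_right (hK _ _ _ _ (by omega) (by omega))
          (hK _ _ _ _ (by omega) (by omega))) ih'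
    · clear ih
      induction n' with
      | zero => simp [PP]
      | succ n' ih' =>
        simp only [PP]
        exact Nat.Coprime.mul_right (Nat.Coprime.mul_right (hK _ _ _ _ (by omega) (by omega))
          (hK _ _ _ _ (by omega) (by omega))) ih'

lemma PP_odd {j : ℕ} (hj : j < 34) (n : ℕ) : Odd (PP j n) := by
  induction n with
  | zero => simp [PP]
  | succ n ih =>
    simp only [PP]
    exact ((PK_odd fun k hk => idx_pos hj (by omega) hk).mul
      (PK_odd fun k hk => idx_pos hj (by omega) hk)).mul ih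

lemma PK_idx_le {i j b : ℕ} (hj : j < 34) (hb : b < 2) :
    PK (idx i j b) ≤ 2 ^ ((4 * i + 1030) * nn i) := by
  have h1 : PK (idx i j b) ≤ (2 ^ (4 * i + 1030)) ^ (idx i j b).card := by
    apply Finset.prod_le_pow_card
    intro k hk
    exact (pr_lt_idx hj hb hk).le
  rw [card_idx, ← pow_mul] at h1
  exact h1

/-- exponents bounding `PP` -/
def ee : ℕ → ℕ
  | 0 => 0
  | n + 1 => 2 * ((4 * n + 1030) * nn n) + ee n

lemma PP_le {j : ℕ} (hj : j < 34) (n : ℕ) : PP j n ≤ 2 ^ ee n := by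
  induction n with
  | zero => simp [PP, ee]
  | succ n ih =>
    simp only [PP, ee]
    rw [pow_add, two_mul, pow_add]
    exact Nat.mul_le_mul (Nat.mul_le_mul (PK_idx_le hj (by omega)) (PK_idx_le hj (by omega))) ih

lemma ee_le (n : ℕ) : ee n ≤ (4 * n + 1030) * 2 ^ (n + 258) := by
  induction n with
  | zero => simp [ee]
  | succ n ih =>
    simp only [ee, nn_eq]
    have h1 : (4 * n + 1030) * 2 ^ (n + 258) ≤ (4 * (n + 1) + 1030) * 2 ^ (n + 258) :=
      Nat.mul_le_mul_right _ (by omega)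
    have h2 : (2 : ℕ) ^ (n + 1 + 258) = 2 * 2 ^ (n + 258) := by
      rw [show n + 1 + 258 = n + 258 + 1 by ring, pow_succ]; ring
    have h3 : 2 ^ (n + 258) = 2 * 2 ^ (n + 257) := by
      rw [show n + 258 = n + 257 + 1 by ring, pow_succ]; ring
    rw [h2]
    nlinarith

/-- The product over the seventeen colours of block `τ`. -/
noncomputable def PT (τ I : ℕ) : ℕ := ∏ j ∈ Finset.range 17, PP (j + 17 * τ) (I + 1)

lemma PT_odd {τ : ℕ} (hτ : τ < 2) (I : ℕ) : Odd (PT τ I) := by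
  unfold PT
  have : ∀ s : Finset ℕ, (∀ j ∈ s, j < 17) → Odd (∏ j ∈ s, PP (j + 17 * τ) (I + 1)) := by
    intro s
    classical
    induction s using Finset.induction_on with
    | empty => simp
    | insert a s ha ih =>
      intro h
      rw [Finset.prod_insert ha]
      exact (PP_odd (by have := h a (Finset.mem_insert_self _ _); omega) _).mul
        (ih fun k hk => h k (Finset.mem_insert_of_mem hk))
  exact this _ fun j hj => Finset.mem_range.mp hj

lemma PT_coprime (I : ℕ) : Nat.Coprime (PT 0 I) (PT 1 I) := by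
  unfold PT
  apply Nat.Coprime.prod_left
  intro j hj
  apply Nat.Coprime.prod_right
  intro j' hj'
  have h1 := Finset.mem_range.mp hj
  have h2 := Finset.mem_range.mp hj'
  exact PP_coprime (by omega) (by omega) (by omega)

lemma PP_dvd_PT {j τ I : ℕ} (hj : j < 17) : PP (j + 17 * τ) (I + 1) ∣ PT τ I :=
  Finset.dvd_prod_of_mem (fun j => PP (j + 17 * τ) (I + 1)) (Finset.mem_range.mpr hj)

lemma PT_le {τ : ℕ} (hτ : τ < 2) (I : ℕ) : PT τ I ≤ (2 ^ ee (I + 1)) ^ 17 := by
  unfold PT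
  have : (2 ^ ee (I + 1)) ^ 17 = (2 ^ ee (I + 1)) ^ (Finset.range 17).card := by simp
  rw [this]
  apply Finset.prod_le_pow_card
  intro j hj
  exact PP_le (by have := Finset.mem_range.mp hj; omega) _

/-- size bound for the full product -/
def Ebound (I : ℕ) : ℕ := (4 * I + 1034) * 2 ^ (I + 265)

lemma PT_mul_le (I : ℕ) : PT 0 I * PT 1 I ≤ 2 ^ Ebound I := by
  have h1 := PT_le (τ := 0) (by omega) I
  have h2 := PT_le (τ := 1) (by omega) I
  have h3 : PT 0 I * PT 1 I ≤ (2 ^ ee (I + 1)) ^ 17 * (2 ^ ee (I + 1)) ^ 17 :=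
    Nat.mul_le_mul h1 h2
  refine h3.trans ?_
  rw [← pow_mul, ← pow_add]
  apply Nat.pow_le_pow_right (by norm_num)
  have h4 := ee_le (I + 1)
  unfold Ebound
  have h5 : (2 : ℕ) ^ (I + 265) = 64 * 2 ^ (I + 1 + 258) := by
    rw [show I + 265 = (I + 1 + 258) + 6 by ring, pow_add]; ring
  rw [h5]
  have h6 : 4 * (I + 1) + 1030 = 4 * I + 1034 := by ring
  rw [h6] at h4
  nlinarith [Nat.zero_le ((4 * I + 1034) * 2 ^ (I + 1 + 258))]

end Crest.Agent.Egy
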