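import Mathlib.NumberTheory.Chebyshev

/-!
# A crude upper bound for the `k`-th prime
-/

set_option autoImplicit false

namespace Crest.Agent.Egy

/-- the `k`-th prime -/
noncomputable def pr (k : ℕ) : ℕ := Nat.nth Nat.Prime k

lemma pr_prime (k : ℕ) : (pr k).Prime := Nat.prime_nth_prime k

lemma pr_strictMono : StrictMono pr := Nat.nth_strictMono Nat.infinite_setOfPred_prime

lemma pr_injective : Function.Injective pr := pr_strictMono.injective

lemma le_pr (k : ℕ) : k ≤ pr k := pr_strictMono.le_apply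

lemma pr_odd (k : ℕ) (hk : 1 ≤ k) : Odd (pr k) := by
  have h1 : pr 0 < pr k := pr_strictMono (by omega)
  have h2 : 2 ≤ pr 0 := (pr_prime 0).two_le
  exact (pr_prime k).odd_of_ne_two (by omega)

lemma two_mul_add_one_le (m : ℕ) (hm : 3 ≤ m) : 2 * m + 1 ≤ 2 ^ m := by
  induction m, hm using Nat.le_induction with
  | base => norm_num
  | succ m hm ih => rw [pow_succ]; omega

lemma pr_lt (m : ℕ) (hm : 3 ≤ m) (k : ℕ) (hk : k < 2 ^ m) : pr k < 2 ^ (2 * m) := by
  unfold pr
  have h2m : (2 : ℕ) ^ (2 * m) = 2 ^ m * 2 ^ m := by rw [two_mul, pow_add]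
  have hpm : 2 * m + 1 ≤ 2 ^ m := two_mul_add_one_le m hm
  have hpos : 0 < 2 ^ (2 * m) := by positivity
  obtain ⟨n, hn⟩ : ∃ n, n + 1 = 2 ^ (2 * m) := ⟨2 ^ (2 * m) - 1, by omega⟩
  rw [← hn]
  apply Nat.nth_lt_of_lt_count
  have hc : Nat.count Nat.Prime (n + 1) = Nat.primeCounting n := rfl
  rw [hc]
  have hkey : 2 ^ m ≤ Nat.primeCounting n := by
    have h := Chebyshev.pi_ge n
    have hlog2 : 0 < Real.log 2 := Real.log_pos (by norm_num)
    have hn2 : 2 ≤ n := by
      have : 2 ^ m * 2 ^ m ≥ 7 * 7 := by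
        have : 7 ≤ 2 ^ m := by omega
        exact Nat.mul_le_mul this this
      omega
    have hlogn : 0 < Real.log n := Real.log_pos (by exact_mod_cast (by omega : 1 < n))
    have hn1 : ((n : ℝ) + 1) = 2 ^ (2 * m) := by exact_mod_cast hn
    have hlogn1 : Real.log ((n : ℝ) + 1) = (2 * m : ℝ) * Real.log 2 := by
      rw [hn1, Real.log_pow]; push_cast; ring
    have hlogle : Real.log n ≤ (2 * m : ℝ) * Real.log 2 := by
      rw [← hlogn1]
      apply Real.log_le_log (by exact_mod_cast (by omega : 0 < n))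
      linarith
    have hnum : (0 : ℝ) ≤ (n : ℝ) * Real.log 2 - Real.log (n + 1) := by
      rw [hlogn1]
      have : (2 * m : ℝ) ≤ n := by
        have : 2 * m ≤ n := by
          have : (2 * m + 1) * 1 ≤ 2 ^ m * 2 ^ m := Nat.mul_le_mul hpm Nat.one_le_two_pow
          omega
        exact_mod_cast this
      nlinarith
    have h3 : ((n : ℝ) * Real.log 2 - Real.log (n + 1)) / ((2 * m : ℝ) * Real.log 2)
        ≤ (Nat.primeCounting n : ℝ) := by
      refine le_trans ?_ h
      exact div_le_div_of_nonneg_left hnum hlogn hlogle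
    have hm0 : (0 : ℝ) < 2 * m := by
      have : 0 < m := by omega
      positivity
    have h4 : ((n : ℝ) * Real.log 2 - Real.log (n + 1)) / ((2 * m : ℝ) * Real.log 2)
        = ((n : ℝ) - 2 * m) / (2 * m) := by
      rw [hlogn1]
      field_simp
    rw [h4, div_le_iff₀ hm0] at h3
    have h5 : 2 ^ m * (2 * m) ≤ n - 2 * m := by
      have : (2 * m + 1) * 2 ^ m ≤ 2 ^ m * 2 ^ m := Nat.mul_le_mul_right _ hpm
      have h6 : (2 * m + 1) * 2 ^ m = 2 ^ m * (2 * m) + 2 ^ m := by ring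
      omega
    have h7 : (2 * m : ℕ) ≤ n := by
      have : (2 * m + 1) * 1 ≤ 2 ^ m * 2 ^ m := Nat.mul_le_mul hpm Nat.one_le_two_pow
      omega
    have h8 : ((2 ^ m * (2 * m) : ℕ) : ℝ) ≤ ((n - 2 * m : ℕ) : ℝ) := by exact_mod_cast h5
    rw [Nat.cast_sub h7] at h8
    push_cast at h8
    have h9 : ((2 ^ m : ℕ) : ℝ) * (2 * m) ≤ (Nat.primeCounting n : ℝ) * (2 * m) := by
      push_cast
      linarith
    have h10 := le_of_mul_le_mul_right h9 hm0
    exact_mod_cast h10
  omega

end Crest.Agent.Egy
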