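import Crest.Agent.Lib.Egy.KeyCover
import Mathlib.NumberTheory.Primorial
import Mathlib.Algebra.BigOperators.Ring.Nat

/-!
# Selecting moduli: the two selection lemmas used by the algorithm
-/

set_option autoImplicit false
set_option exponentiation.threshold 3000

namespace Crest.Agent.Egy

open Finset
open scoped Nat

/-- The covering property, abstractly. -/
def CoverProp (P₀ P₁ L₀ : ℕ) : Prop :=
  ∀ (l c d N : ℕ), 2 ^ 1036 ≤ l → l ≤ L₀ →
    (∀ p, p.Prime → p ≤ l / 40 → p ∣ d) → 2 ^ (l - 2 * (l / 20)) ≤ N →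
    (∀ s < N, Nat.Coprime (c + d * s) d) → (∀ s < N, 0 < c + d * s) →
    (∀ s < N, c + d * s < 2 ^ (l + 2)) →
    ∃ s < N, Nat.Coprime (c + d * s) (P₀ * P₁) ∧
      (∀ r : ℕ, ∃ e : Fin 17 → ℕ, Function.Injective e ∧ (∀ j, e j ∣ P₀ ∧ 1 < e j) ∧
        (∑ j, e j) ≡ r [MOD (c + d * s)]) ∧
      (∀ r : ℕ, ∃ e : Fin 17 → ℕ, Function.Injective e ∧ (∀ j, e j ∣ P₁ ∧ 1 < e j) ∧
        (∑ j, e j) ≡ r [MOD (c + d * s)])

theorem coverProp_PT (I : ℕ) : CoverProp (PT 0 I) (PT 1 I) (2 ^ (I + 8) - 2) := by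
  intro l c d N hl hlL hd hN hcop hpos hlt
  have h2 : 2 ≤ 2 ^ (I + 8) := by
    calc 2 = 2 ^ 1 := by norm_num
      _ ≤ 2 ^ (I + 8) := Nat.pow_le_pow_right (by norm_num) (by omega)
  obtain ⟨s, hs, h1, h3⟩ := key_cover I l c d N hl (by omega) hd hN hcop hpos hlt
  exact ⟨s, hs, h1, h3 0 (by omega), h3 1 (by omega)⟩

/-- primorial bound for the selection. -/
lemma primorial_mul_le (l : ℕ) (hl : 100000 ≤ l) :
    primorial (l / 40) * 2 ^ (l - 2 * (l / 20)) ≤ 2 ^ (l - l / 20) := by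
  have h1 : primorial (l / 40) ≤ 2 ^ (l / 20) := by
    refine (primorial_le_four_pow _).trans ?_
    rw [show (4 : ℕ) = 2 ^ 2 by norm_num, ← pow_mul]
    exact Nat.pow_le_pow_right (by norm_num) (by omega)
  calc primorial (l / 40) * 2 ^ (l - 2 * (l / 20)) ≤ 2 ^ (l / 20) * 2 ^ (l - 2 * (l / 20)) :=
        Nat.mul_le_mul_right _ h1
    _ = 2 ^ (l - l / 20) := by
        rw [← pow_add]
        congr 1
        omega

lemma sum_e_le {P : ℕ} (hP : 0 < P) (e : Fin 17 → ℕ) (he : ∀ j, e j ∣ P) :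
    ∑ j, e j ≤ 17 * P := by
  have := Finset.sum_le_card_nsmul (Finset.univ : Finset (Fin 17)) e P
    (fun j _ => Nat.le_of_dvd hP (he j))
  simpa using this

/-- Selection for a step of the first kind. -/
theorem selectI {P₀ P₁ L₀ : ℕ} (hC : CoverProp P₀ P₁ L₀) (hP₀ : 0 < P₀) (hP₁ : 0 < P₁)
    (Y W l : ℕ) (hl : 2 ^ 1036 ≤ l) (hlL : l ≤ L₀) (hW : 0 < W)
    (h1 : 2 ^ l * W ≤ Y) (h2 : Y < 2 ^ (l + 1) * W) (h17 : 17 * (P₀ * P₁) ≤ W) :
    ∃ (q : ℕ) (e : Fin 17 → ℕ) (W' : ℕ), Nat.Coprime q (P₀ * P₁) ∧ Odd q ∧ 2 ^ l < q ∧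
      q < 2 ^ (l + 2) ∧ Function.Injective e ∧ (∀ j, e j ∣ P₀ ∧ 1 < e j) ∧
      q * W = Y + ∑ j, e j + q * W' ∧ 2 ^ (l / 20) * W' ≤ 2 * W := by
  have hl5 : 100000 ≤ l := le_trans (by norm_num) hl
  set R := primorial (l / 40) with hR
  have hR0 : 0 < R := primorial_pos _
  set M := l - 2 * (l / 20) with hM
  set X := 2 ^ (l - l / 20) with hX
  have hRN : R * 2 ^ M ≤ X := primorial_mul_le l hl5
  set d := Y / W with hd
  have hd1 : d * W ≤ Y := Nat.div_mul_le_self Y W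
  have hd2 : Y < W * (d + 1) := Nat.lt_mul_div_succ Y hW
  have hd3 : 2 ^ l ≤ d := by
    rw [hd, Nat.le_div_iff_mul_le hW]
    exact h1
  have hd4 : d < 2 ^ (l + 1) := by
    rw [hd, Nat.div_lt_iff_lt_mul hW]
    exact h2
  have hpw1 : 2 ^ (l + 1) = 2 * 2 ^ l := by rw [pow_succ]; ring
  have hpw2 : 2 ^ (l + 2) = 4 * 2 ^ l := by rw [pow_add]; ring
  have hXle : X ≤ 2 ^ l := Nat.pow_le_pow_right (by norm_num) (by omega)
  have hX3 : 4 ≤ X := by
    calc 4 = 2 ^ 2 := by norm_num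
      _ ≤ X := Nat.pow_le_pow_right (by norm_num) (by omega)
  set A := (d + 2) / R + 1 with hA
  have hc1 : d + 2 < R * A := Nat.lt_mul_div_succ (d + 2) hR0
  have hc2 : R * A ≤ d + 2 + R := by
    have := Nat.mul_div_le (d + 2) R
    rw [hA, mul_add, mul_one]
    omega
  have hqeq : ∀ s, A * R + 1 + R * s = (A + s) * R + 1 := by intro s; ring
  have hmulc : A * R = R * A := mul_comm _ _
  have hcop : ∀ s < 2 ^ M, Nat.Coprime (A * R + 1 + R * s) R := by
    intro s _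
    rw [hqeq, Nat.coprime_mul_right_add_left]
    exact Nat.coprime_one_left R
  have hub : ∀ s < 2 ^ M, A * R + 1 + R * s ≤ d + 3 + X := by
    intro s hs
    have h3 : R * (s + 1) ≤ R * 2 ^ M := Nat.mul_le_mul_left _ hs
    rw [mul_add, mul_one] at h3
    omega
  obtain ⟨s, hs, hcopP, h0, _⟩ := hC l (A * R + 1) R (2 ^ M) hl hlL
    (fun p hp hpl => (Nat.Prime.dvd_primorial_iff hp).mpr hpl) le_rfl hcop
    (fun s _ => by omega)
    (fun s hs => by
      have := hub s hs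
      omega)
  set q := A * R + 1 + R * s with hq
  have hq1 : d + 3 ≤ q := by
    have : 0 ≤ R * s := Nat.zero_le _
    omega
  have hq2 : q ≤ d + 3 + X := hub s hs
  have hqW1 : (d + 3) * W ≤ q * W := Nat.mul_le_mul_right _ hq1
  have hqW2 : q * W ≤ (d + 3 + X) * W := Nat.mul_le_mul_right _ hq2
  have hexp1 : (d + 3) * W = d * W + 3 * W := by ring
  have hexp2 : (d + 3 + X) * W = d * W + 3 * W + X * W := by ring
  have hexp3 : W * (d + 1) = d * W + W := by ring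
  have hYq : Y + 2 * W ≤ q * W := by omega
  obtain ⟨e, he1, he2, he3⟩ := h0 (q * W - Y)
  have hsum : ∑ j, e j ≤ 17 * P₀ := sum_e_le hP₀ e (fun j => (he2 j).1)
  have hP : 17 * P₀ ≤ 17 * (P₀ * P₁) := by
    apply Nat.mul_le_mul_left
    exact Nat.le_mul_of_pos_right _ hP₁
  have hsum2 : ∑ j, e j ≤ q * W - Y := by omega
  obtain ⟨W', hW'⟩ := (Nat.modEq_iff_dvd' hsum2).mp he3
  refine ⟨q, e, W', hcopP, ?_, ?_, ?_, he1, he2, ?_, ?_⟩
  · have h2R : 2 ∣ R := (Nat.Prime.dvd_primorial_iff Nat.prime_two).mpr (by omega)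
    have := (hcop s hs).coprime_dvd_right h2R
    exact Nat.Coprime.odd_of_right this
  · omega
  · omega
  · omega
  · -- the size bound
    have h3 : q * W' ≤ 3 * W + X * W := by omega
    have h4 : 2 ^ l * W' ≤ q * W' := Nat.mul_le_mul_right _ (by omega)
    have h5 : 2 ^ l = X * 2 ^ (l / 20) := by
      have h50 : l - l / 20 + l / 20 = l := by omega
      rw [hX, ← pow_add, h50]
    have h6 : 3 * W ≤ X * W := Nat.mul_le_mul_right _ (by omega)
    have hXpos : 0 < X := by omega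
    apply Nat.le_of_mul_le_mul_left _ hXpos
    calc X * (2 ^ (l / 20) * W') = 2 ^ l * W' := by rw [h5]; ring
      _ ≤ X * (2 * W) := by nlinarith

/-- Selection for a step of the second kind. -/
theorem selectII {P₀ P₁ L₀ : ℕ} (hC : CoverProp P₀ P₁ L₀) (hP₁odd : Odd P₁)
    (W k l : ℕ) (hl : 2 ^ 1036 ≤ l) (hlL : l ≤ L₀)
    (h1 : 2 ^ (k + l) ≤ W) (h2 : W < 2 ^ (k + l + 1)) :
    ∃ (t : ℕ) (e : Fin 17 → ℕ) (P W' : ℕ), Odd P ∧ 0 < t ∧ Function.Injective e ∧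
      (∀ j, e j ∣ P₁ ∧ 1 < e j) ∧ ∑ j, e j = t * P ∧ W = t * 2 ^ k + W' ∧
      W' < 2 ^ (k + (l - l / 20)) := by
  have hl5 : 100000 ≤ l := le_trans (by norm_num) hl
  set R := primorial (l / 40) with hR
  have hR0 : 0 < R := primorial_pos _
  set M := l - 2 * (l / 20) with hM
  set X := 2 ^ (l - l / 20) with hX
  have hRN : R * 2 ^ M ≤ X := primorial_mul_le l hl5
  have hk0 : 0 < 2 ^ k := Nat.two_pow_pos k
  set t₀ := W / 2 ^ k with ht₀
  have ht1 : t₀ * 2 ^ k ≤ W := Nat.div_mul_le_self W _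
  have ht2 : W < 2 ^ k * (t₀ + 1) := Nat.lt_mul_div_succ W hk0
  have ht3 : 2 ^ l ≤ t₀ := by
    rw [ht₀, Nat.le_div_iff_mul_le hk0]
    rw [pow_add] at h1
    rwa [mul_comm]
  have ht4 : t₀ < 2 ^ (l + 1) := by
    rw [ht₀, Nat.div_lt_iff_lt_mul hk0]
    rw [show k + l + 1 = k + (l + 1) by ring, pow_add] at h2
    rwa [mul_comm]
  have hpw1 : 2 ^ (l + 1) = 2 * 2 ^ l := by rw [pow_succ]; ring
  have hpw2 : 2 ^ (l + 2) = 4 * 2 ^ l := by rw [pow_add]; ring
  have hXle : 2 * X ≤ 2 ^ l := by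
    rw [hX, ← pow_succ']
    exact Nat.pow_le_pow_right (by norm_num) (by omega)
  have hX3 : 4 ≤ X := by
    calc 4 = 2 ^ 2 := by norm_num
      _ ≤ X := Nat.pow_le_pow_right (by norm_num) (by omega)
  set x := t₀ - X - 1 with hx
  have hxeq : x + X + 1 = t₀ := by omega
  set A := x / R + 1 with hA
  have hc1 : x < R * A := Nat.lt_mul_div_succ x hR0
  have hc2 : R * A ≤ x + R := by
    have := Nat.mul_div_le x R
    rw [hA, mul_add, mul_one]
    omega
  have hqeq : ∀ s, A * R + 1 + R * s = (A + s) * R + 1 := by intro s; ring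
  have hmulc : A * R = R * A := mul_comm _ _
  have hcop : ∀ s < 2 ^ M, Nat.Coprime (A * R + 1 + R * s) R := by
    intro s _
    rw [hqeq, Nat.coprime_mul_right_add_left]
    exact Nat.coprime_one_left R
  have hub : ∀ s < 2 ^ M, A * R + 1 + R * s ≤ t₀ := by
    intro s hs
    have h3 : R * (s + 1) ≤ R * 2 ^ M := Nat.mul_le_mul_left _ hs
    rw [mul_add, mul_one] at h3
    omega
  obtain ⟨s, hs, _, _, h0⟩ := hC l (A * R + 1) R (2 ^ M) hl hlL
    (fun p hp hpl => (Nat.Prime.dvd_primorial_iff hp).mpr hpl) le_rfl hcop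
    (fun s _ => by omega)
    (fun s hs => by
      have := hub s hs
      omega)
  set t := A * R + 1 + R * s with ht
  have ht5 : t ≤ t₀ := hub s hs
  have ht6 : x + 2 ≤ t := by
    have : 0 ≤ R * s := Nat.zero_le _
    omega
  have ht0 : 0 < t := by omega
  obtain ⟨e, he1, he2, he3⟩ := h0 0
  have hdvd : t ∣ ∑ j, e j := (Nat.modEq_zero_iff_dvd).mp he3
  obtain ⟨P, hP⟩ := hdvd
  have hoddsum : Odd (∑ j, e j) := by
    rw [Finset.odd_sum_iff_odd_card_odd]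
    have h3 : (Finset.univ.filter (fun j => Odd (e j))) = Finset.univ := by
      apply Finset.filter_true_of_mem
      intro j _
      exact Odd.of_dvd_nat hP₁odd (he2 j).1
    rw [h3]
    decide
  have hPodd : Odd P := by
    rw [hP] at hoddsum
    exact (Nat.odd_mul.mp hoddsum).2
  have hle : t * 2 ^ k ≤ W := (Nat.mul_le_mul_right _ ht5).trans ht1
  refine ⟨t, e, P, W - t * 2 ^ k, hPodd, ht0, he1, he2, hP, by omega, ?_⟩
  rw [pow_add]
  change W - t * 2 ^ k < 2 ^ k * X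
  have h3 : W < 2 ^ k * (t₀ + 1) := ht2
  have h4 : t₀ + 1 ≤ t + X := by omega
  have h5 : 2 ^ k * (t₀ + 1) ≤ 2 ^ k * (t + X) := Nat.mul_le_mul_left _ h4
  have h6 : 2 ^ k * (t + X) = t * 2 ^ k + 2 ^ k * X := by ring
  omega

end Crest.Agent.Egy
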