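import Crest.Agent.Lib.Egy.Select

/-!
# The steps of the algorithm: bookkeeping of terms
-/

set_option autoImplicit false
set_option exponentiation.threshold 3000

namespace Crest.Agent.Egy

open Finset

/-- parameters of the algorithm -/
structure AlgPar (P₀ P₁ L₀ L F₀ B : ℕ) : Prop where
  cover : CoverProp P₀ P₁ L₀
  hL : L ≤ L₀
  hLbig : 2 ^ 1036 ≤ L
  odd₀ : Odd P₀
  odd₁ : Odd P₁
  one₀ : 1 < P₀
  one₁ : 1 < P₁
  cop : Nat.Coprime P₀ P₁
  hF1 : ∀ k q : ℕ, 0 < q → q < 2 ^ (L + 2) → 2 ^ k * q ≠ F₀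
  hF2 : F₀ < 2 ^ B

/-- classification of old terms during the first phase -/
def OldI (P₀ P₁ F₀ n k E : ℕ) : Prop :=
  n = F₀ ∨ (Nat.Coprime n (P₀ * P₁) ∧ (¬ 2 ^ (k + 1) ∣ n ∨ ∃ m, n = 2 ^ m)) ∨
    (¬ Nat.Coprime n (P₀ * P₁) ∧ ¬ P₀ ∣ n ∧ ¬ 2 ^ E ∣ n)

lemma OldI.mono {P₀ P₁ F₀ n k E k' E' : ℕ} (h : OldI P₀ P₁ F₀ n k E) (hk : k ≤ k') (hE : E ≤ E') :
    OldI P₀ P₁ F₀ n k' E' := by
  rcases h with h | ⟨h1, h2⟩ | ⟨h1, h2, h3⟩
  · exact Or.inl h
  · refine Or.inr (Or.inl ⟨h1, ?_⟩)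
    rcases h2 with h2 | h2
    · left
      intro hd
      exact h2 ((pow_dvd_pow 2 (by omega)).trans hd)
    · exact Or.inr h2
  · refine Or.inr (Or.inr ⟨h1, h2, ?_⟩)
    intro hd
    exact h3 ((pow_dvd_pow 2 hE).trans hd)

lemma two_pow_not_dvd_of_odd {E m : ℕ} (hm : Odd m) : ¬ 2 ^ (E + 1) ∣ 2 ^ E * m := by
  intro hd
  rw [pow_succ] at hd
  have h2 := (Nat.mul_dvd_mul_iff_left (Nat.two_pow_pos E)).mp hd
  exact (Nat.not_even_iff_odd.mpr hm) (even_iff_two_dvd.mpr h2)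

/-- facts about the terms `q * 2^E * (g * P₁)` -/
lemma w_props {P₀ P₁ q E e g : ℕ} (h₀ : Odd P₀) (h₁ : Odd P₁) (hp₁ : 1 < P₁)
    (hcop : Nat.Coprime P₀ P₁) (hq : Nat.Coprime q (P₀ * P₁)) (hqo : Odd q)
    (hP : P₀ = e * g) (he : 1 < e) :
    2 ^ E ∣ q * 2 ^ E * (g * P₁) ∧ ¬ 2 ^ (E + 1) ∣ q * 2 ^ E * (g * P₁) ∧
      ¬ Nat.Coprime (q * 2 ^ E * (g * P₁)) (P₀ * P₁) ∧ ¬ P₀ ∣ q * 2 ^ E * (g * P₁) ∧
      2 ≤ q * 2 ^ E * (g * P₁) ∧ 2 ^ E ≤ q * 2 ^ E * (g * P₁) := by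
  have hg0 : 0 < g := by
    rcases Nat.eq_zero_or_pos g with h | h
    · subst h
      rw [mul_zero] at hP
      subst hP
      simp at h₀
    · exact h
  have hgo : Odd g := by
    rw [hP] at h₀
    exact (Nat.odd_mul.mp h₀).2
  have heo : Odd e := by
    rw [hP] at h₀
    exact (Nat.odd_mul.mp h₀).1
  have hq0 : 0 < q := hqo.pos
  have hpos : 0 < q * (g * P₁) := by positivity
  have heq : q * 2 ^ E * (g * P₁) = 2 ^ E * (q * (g * P₁)) := by ring
  have h2pos : 0 < 2 ^ E := Nat.two_pow_pos E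
  refine ⟨?_, ?_, ?_, ?_, ?_, ?_⟩
  · rw [heq]; exact dvd_mul_right _ _
  · rw [heq]
    exact two_pow_not_dvd_of_odd (hqo.mul (hgo.mul h₁))
  · intro hc
    have h1 : P₁ ∣ q * 2 ^ E * (g * P₁) := ⟨q * 2 ^ E * g, by ring⟩
    have h2 : P₁ ∣ P₀ * P₁ := dvd_mul_left _ _
    have h3 := Nat.dvd_gcd h1 h2
    rw [hc] at h3
    have := Nat.le_of_dvd (by norm_num) h3
    omega
  · intro hd
    have h1 : e * g ∣ (q * 2 ^ E * P₁) * g := by
      rw [← hP]
      convert hd using 1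
      ring
    have h2 : e ∣ q * 2 ^ E * P₁ := Nat.dvd_of_mul_dvd_mul_right hg0 h1
    have heP : e ∣ P₀ := ⟨g, hP⟩
    have h3 : Nat.Coprime e (q * 2 ^ E * P₁) := by
      refine Nat.Coprime.mul_right (Nat.Coprime.mul_right ?_ ?_) ?_
      · exact ((hq.coprime_mul_right_right).coprime_dvd_right heP).symm
      · apply Nat.Coprime.pow_right
        exact Nat.Coprime.symm (Odd.coprime_two_left heo)
      · exact hcop.coprime_dvd_left heP
    have h4 := h3.eq_one_of_dvd h2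
    omega
  · have h1 : P₁ ∣ q * 2 ^ E * (g * P₁) := ⟨q * 2 ^ E * g, by ring⟩
    have h2 : 0 < q * 2 ^ E * (g * P₁) := by rw [heq]; positivity
    have := Nat.le_of_dvd h2 h1
    omega
  · have h2 : 0 < q * 2 ^ E * (g * P₁) := by rw [heq]; positivity
    exact Nat.le_of_dvd h2 (by rw [heq]; exact dvd_mul_right _ _)

/-- The rational identity of a step of the first kind. -/
lemma identityI {P₀ P₁ q E k W W' : ℕ} (e g : Fin 17 → ℕ) (hP₀ : 0 < P₀) (hP₁ : 0 < P₁)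
    (hq0 : 0 < q) (hkE : k ≤ E)
    (hg : ∀ j, P₀ = e j * g j)
    (hEq : q * W = 2 ^ (E - k) * (P₀ * P₁) + ∑ j, e j + q * W') :
    (1 : ℚ) / ((2 ^ k * q : ℕ) : ℚ) + ∑ j, (1 : ℚ) / ((q * 2 ^ E * (g j * P₁) : ℕ) : ℚ)
      + ((2 * W' : ℕ) : ℚ) / (2 ^ (E + 1) * ((P₀ * P₁ : ℕ) : ℚ))
      = (W : ℚ) / (2 ^ E * ((P₀ * P₁ : ℕ) : ℚ)) := by
  have hP₀q : (P₀ : ℚ) ≠ 0 := by positivity
  have hP₁q : (P₁ : ℚ) ≠ 0 := by positivity
  have hqq : (q : ℚ) ≠ 0 := by positivity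
  have h2E : ((2 : ℚ) ^ E) = 2 ^ k * 2 ^ (E - k) := by
    rw [← pow_add, Nat.add_sub_cancel' hkE]
  have hk0 : ((2 : ℚ) ^ k) ≠ 0 := by positivity
  have hEk0 : ((2 : ℚ) ^ (E - k)) ≠ 0 := by positivity
  have hterm : ∀ j, (1 : ℚ) / ((q * 2 ^ E * (g j * P₁) : ℕ) : ℚ)
      = (e j : ℚ) / (q * (2 ^ E * (P₀ * P₁))) := by
    intro j
    have hgj : (g j : ℚ) ≠ 0 := by
      have : g j ≠ 0 := by
        intro h
        have := hg j
        rw [h, mul_zero] at this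
        omega
      exact_mod_cast this
    have hej : (e j : ℚ) ≠ 0 := by
      have : e j ≠ 0 := by
        intro h
        have := hg j
        rw [h, zero_mul] at this
        omega
      exact_mod_cast this
    have hP : (P₀ : ℚ) = e j * g j := by exact_mod_cast hg j
    push_cast
    rw [hP]
    field_simp
  simp_rw [hterm]
  rw [← Finset.sum_div]
  have hEqQ : (q : ℚ) * W = 2 ^ (E - k) * (P₀ * P₁) + ∑ j, (e j : ℚ) + q * W' := by
    exact_mod_cast hEq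
  push_cast
  have h2 : (2 : ℚ) ^ (E + 1) = 2 * 2 ^ E := by rw [pow_succ]; ring
  rw [h2, h2E]
  field_simp
  rw [hEqQ]
  ring

lemma coprime_two_prod {P₀ P₁ : ℕ} (h₀ : Odd P₀) (h₁ : Odd P₁) : Nat.Coprime 2 (P₀ * P₁) :=
  Nat.Coprime.mul_right (Odd.coprime_two_left h₀) (Odd.coprime_two_left h₁)

/-- Bookkeeping for a step of the first kind. -/
theorem termsI {P₀ P₁ L₀ L F₀ B : ℕ} (par : AlgPar P₀ P₁ L₀ L F₀ B) {T : Finset ℕ}
    {W E k k' q W' : ℕ} {target : ℚ} (e : Fin 17 → ℕ)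
    (hT2 : ∀ n ∈ T, 2 ≤ n) (hold : ∀ n ∈ T, OldI P₀ P₁ F₀ n k E)
    (hsum : ∑ n ∈ T, (1 : ℚ) / (n : ℚ) + (W : ℚ) / (2 ^ E * ((P₀ * P₁ : ℕ) : ℚ)) = target)
    (hBE : B ≤ E) (hkk' : k < k') (hk'E : k' ≤ E)
    (hq : Nat.Coprime q (P₀ * P₁)) (hqo : Odd q) (hq1 : 1 < q) (hqL : q < 2 ^ (L + 2))
    (hinj : Function.Injective e) (he : ∀ j, e j ∣ P₀ ∧ 1 < e j)
    (hEq : q * W = 2 ^ (E - k') * (P₀ * P₁) + ∑ j, e j + q * W') :
    ∃ T' : Finset ℕ, (∀ n ∈ T', 2 ≤ n) ∧ (∀ n ∈ T', OldI P₀ P₁ F₀ n k' (E + 1)) ∧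
      ∑ n ∈ T', (1 : ℚ) / (n : ℚ)
        + ((2 * W' : ℕ) : ℚ) / (2 ^ (E + 1) * ((P₀ * P₁ : ℕ) : ℚ)) = target ∧
      T'.card ≤ T.card + 18 := by
  classical
  have hP₀ : 0 < P₀ := by have := par.one₀; omega
  have hP₁ : 0 < P₁ := by have := par.one₁; omega
  set g : Fin 17 → ℕ := fun j => P₀ / e j with hg
  have hgP : ∀ j, P₀ = e j * g j := fun j => (Nat.mul_div_cancel' (he j).1).symm
  set w : Fin 17 → ℕ := fun j => q * 2 ^ E * (g j * P₁) with hw
  have hwp := fun j => w_props (E := E) par.odd₀ par.odd₁ par.one₁ par.cop hq hqo (hgP j) (he j).2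
  have hg0 : ∀ j, 0 < g j := by
    intro j
    rcases Nat.eq_zero_or_pos (g j) with h | h
    · have := hgP j
      rw [h, mul_zero] at this
      omega
    · exact h
  have hwinj : Function.Injective w := by
    intro i j hij
    have h1 : q * 2 ^ E * (g i * P₁) = q * 2 ^ E * (g j * P₁) := hij
    have h2 : g i * P₁ = g j * P₁ :=
      Nat.eq_of_mul_eq_mul_left (by have := hqo.pos; positivity) h1
    have h3 : g i = g j := Nat.eq_of_mul_eq_mul_right hP₁ h2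
    have h4 : e i * g i = e j * g i := by
      rw [← hgP i]
      rw [h3, ← hgP j]
    exact hinj (Nat.eq_of_mul_eq_mul_right (hg0 i) h4)
  set u := 2 ^ k' * q with hu
  have hcopU : Nat.Coprime u (P₀ * P₁) :=
    Nat.Coprime.mul_left (Nat.Coprime.pow_left k' (coprime_two_prod par.odd₀ par.odd₁)) hq
  have hq0 : 0 < q := by omega
  have huF : u ≠ F₀ := par.hF1 k' q hq0 hqL
  have hqT : 2 ^ (k + 1) ∣ u := (pow_dvd_pow 2 hkk').trans (dvd_mul_right _ _)
  have hnotpow : ∀ m, u ≠ 2 ^ m := by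
    intro m hm
    have h1 : q ∣ 2 ^ m := by
      rw [← hm]
      exact dvd_mul_left _ _
    have h2 : Nat.Coprime q (2 ^ m) := Nat.Coprime.pow_right m (Odd.coprime_two_right hqo)
    have h3 := h2.eq_one_of_dvd h1
    omega
  have huT : u ∉ T := by
    intro hmem
    rcases hold u hmem with h | ⟨_, h2⟩ | ⟨h1, _, _⟩
    · exact huF h
    · rcases h2 with h2 | ⟨m, hm⟩
      · exact h2 hqT
      · exact hnotpow m hm
    · exact h1 hcopU
  have huw : ∀ j, u ≠ w j := by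
    intro j hj
    rw [hj] at hcopU
    exact (hwp j).2.2.1 hcopU
  have hwT : ∀ j, w j ∉ T := by
    intro j hmem
    rcases hold (w j) hmem with h | ⟨h1, _⟩ | ⟨_, _, h3⟩
    · have h4 : 2 ^ E ≤ w j := (hwp j).2.2.2.2.2
      have h5 : 2 ^ B ≤ 2 ^ E := Nat.pow_le_pow_right (by norm_num) hBE
      have h6 := par.hF2
      omega
    · exact (hwp j).2.2.1 h1
    · exact h3 (hwp j).1
  set Tw := (Finset.univ : Finset (Fin 17)).image w with hTw
  have hdisj : Disjoint T Tw := by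
    rw [Finset.disjoint_left]
    intro n hn hn2
    obtain ⟨j, _, rfl⟩ := Finset.mem_image.mp hn2
    exact hwT j hn
  have hu2 : u ∉ T ∪ Tw := by
    intro h
    rcases Finset.mem_union.mp h with h | h
    · exact huT h
    · obtain ⟨j, _, hj⟩ := Finset.mem_image.mp h
      exact huw j hj.symm
  refine ⟨insert u (T ∪ Tw), ?_, ?_, ?_, ?_⟩
  · intro n hn
    rcases Finset.mem_insert.mp hn with rfl | hn
    · have : q ≤ 2 ^ k' * q := Nat.le_mul_of_pos_left _ (Nat.two_pow_pos _)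
      rw [hu]
      omega
    · rcases Finset.mem_union.mp hn with hn | hn
      · exact hT2 n hn
      · obtain ⟨j, _, rfl⟩ := Finset.mem_image.mp hn
        exact (hwp j).2.2.2.2.1
  · intro n hn
    rcases Finset.mem_insert.mp hn with rfl | hn
    · refine Or.inr (Or.inl ⟨hcopU, Or.inl ?_⟩)
      rw [hu]
      exact two_pow_not_dvd_of_odd hqo
    · rcases Finset.mem_union.mp hn with hn | hn
      · exact (hold n hn).mono hkk'.le (by omega)
      · obtain ⟨j, _, rfl⟩ := Finset.mem_image.mp hn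
        exact Or.inr (Or.inr ⟨(hwp j).2.2.1, (hwp j).2.2.2.1, (hwp j).2.1⟩)
  · rw [Finset.sum_insert hu2, Finset.sum_union hdisj, hTw,
      Finset.sum_image (fun x _ y _ h => hwinj h)]
    have hid := identityI (k := k') (W := W) (W' := W') e g hP₀ hP₁ hq0 hk'E hgP hEq
    rw [← hsum, ← hid]
    ring
  · have h1 : (insert u (T ∪ Tw)).card ≤ (T ∪ Tw).card + 1 := Finset.card_insert_le _ _
    have h2 : (T ∪ Tw).card ≤ T.card + Tw.card := Finset.card_union_le _ _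
    have h3 : Tw.card ≤ (Finset.univ : Finset (Fin 17)).card := Finset.card_image_le
    simp only [Finset.card_univ, Fintype.card_fin] at h3
    omega

/-- State of the first phase. -/
structure SI (P₀ P₁ F₀ B : ℕ) (target : ℚ) (T : Finset ℕ) (W E k X : ℕ) : Prop where
  two_le : ∀ n ∈ T, 2 ≤ n
  old : ∀ n ∈ T, OldI P₀ P₁ F₀ n k E
  sum_eq : ∑ n ∈ T, (1 : ℚ) / (n : ℚ) + (W : ℚ) / (2 ^ E * ((P₀ * P₁ : ℕ) : ℚ)) = target
  hB : B ≤ E
  hX : 2 ^ X * W ≤ 2 ^ E * (P₀ * P₁)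

/-- One step of the first phase. -/
theorem stepI {P₀ P₁ L₀ L F₀ B : ℕ} (par : AlgPar P₀ P₁ L₀ L F₀ B) {target : ℚ} {T : Finset ℕ}
    {W E k X : ℕ} (hS : SI P₀ P₁ F₀ B target T W E k X) (h17 : 17 * (P₀ * P₁) ≤ W)
    (hXk : k + 1 + 2 ^ 1036 ≤ X) :
    ∃ (x : ℕ) (T' : Finset ℕ) (W' : ℕ), X ≤ x ∧ x + 4 ≤ E ∧
      SI P₀ P₁ F₀ B target T' (2 * W') (E + 1) (x - min (x - k - 1) L)
        (x + (min (x - k - 1) L) / 20 - 1) ∧ T'.card ≤ T.card + 18 := by
  have hP₀ : 0 < P₀ := by have := par.one₀; omega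
  have hP₁ : 0 < P₁ := by have := par.one₁; omega
  have hPP : 0 < P₀ * P₁ := Nat.mul_pos hP₀ hP₁
  have hW : 0 < W := by omega
  have hXb := hS.hX
  set D := 2 ^ E * (P₀ * P₁) with hD
  have hWD : W ≤ D := by
    have : 1 * W ≤ 2 ^ X * W := Nat.mul_le_mul_right _ Nat.one_le_two_pow
    omega
  have hDW0 : D / W ≠ 0 := by
    have : 0 < D / W := Nat.div_pos hWD hW
    omega
  set x := Nat.log 2 (D / W) with hx
  have hx1 : 2 ^ x ≤ D / W := Nat.pow_log_le_self 2 hDW0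
  have hx2 : D / W < 2 ^ (x + 1) := Nat.lt_pow_succ_log_self (by norm_num) _
  have h1x : 2 ^ x * W ≤ D := (Nat.le_div_iff_mul_le hW).mp hx1
  have h2x : D < 2 ^ (x + 1) * W := (Nat.div_lt_iff_lt_mul hW).mp hx2
  have hXx : X ≤ x := Nat.le_log_of_pow_le (by norm_num) ((Nat.le_div_iff_mul_le hW).mpr hXb)
  have hxE : x + 4 ≤ E := by
    have h3 : 2 ^ x * 17 * (P₀ * P₁) ≤ 2 ^ E * (P₀ * P₁) := by
      calc 2 ^ x * 17 * (P₀ * P₁) = 2 ^ x * (17 * (P₀ * P₁)) := by ring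
        _ ≤ 2 ^ x * W := Nat.mul_le_mul_left _ h17
        _ ≤ _ := h1x
    have h4 : 2 ^ x * 17 ≤ 2 ^ E := Nat.le_of_mul_le_mul_right h3 hPP
    have h5 : 2 ^ (x + 4) ≤ 2 ^ E := by
      have : 2 ^ (x + 4) = 2 ^ x * 16 := by rw [pow_add]; norm_num
      have h6 : 0 < 2 ^ x := Nat.two_pow_pos x
      omega
    exact (Nat.pow_le_pow_iff_right (by norm_num)).mp h5
  have hLb := par.hLbig
  set l := min (x - k - 1) L with hl
  have hlbig : 2 ^ 1036 ≤ l := by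
    rw [hl]
    apply le_min _ hLb
    omega
  have hlx : l ≤ x - k - 1 := min_le_left _ _
  have hlL : l ≤ L := min_le_right _ _
  have hkx : k + 1 + l ≤ x := by
    have : 0 < 2 ^ 1036 := by positivity
    omega
  set k' := x - l with hk'
  have hkk' : k < k' := by omega
  have hk'l : k' + l = x := by omega
  have hk'E : k' ≤ E := by omega
  set Y := 2 ^ (E - k') * (P₀ * P₁) with hY
  have hDY : D = 2 ^ k' * Y := by
    have h0 : k' + (E - k') = E := by omega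
    calc D = 2 ^ (k' + (E - k')) * (P₀ * P₁) := by rw [h0]
      _ = 2 ^ k' * Y := by rw [pow_add, hY, mul_assoc]
  have hpx : 2 ^ x = 2 ^ k' * 2 ^ l := by
    rw [← pow_add, hk'l]
  have hpx2 : 2 ^ (x + 1) = 2 ^ k' * 2 ^ (l + 1) := by
    rw [← pow_add, ← add_assoc, hk'l]
  have h1 : 2 ^ l * W ≤ Y := by
    apply Nat.le_of_mul_le_mul_left _ (Nat.two_pow_pos k')
    rw [← hDY, ← mul_assoc, ← hpx]
    exact h1x
  have h2 : Y < 2 ^ (l + 1) * W := by
    apply Nat.lt_of_mul_lt_mul_left (a := 2 ^ k')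
    rw [← hDY, ← mul_assoc, ← hpx2]
    exact h2x
  obtain ⟨q, e, W', hq, hqo, hq1, hq2, hinj, he, hEq, hsize⟩ :=
    selectI par.cover hP₀ hP₁ Y W l hlbig (hlL.trans par.hL) hW h1 h2 h17
  have hq1' : 1 < q := by
    have : 1 ≤ 2 ^ l := Nat.one_le_two_pow
    omega
  have hqL : q < 2 ^ (L + 2) :=
    hq2.trans_le (Nat.pow_le_pow_right (by norm_num) (by omega))
  obtain ⟨T', h3, h4, h5, h6⟩ := termsI par e hS.two_le hS.old hS.sum_eq hS.hB hkk' hk'E hq hqo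
    hq1' hqL hinj he hEq
  refine ⟨x, T', W', hXx, hxE, ⟨h3, h4, h5, by have := hS.hB; omega, ?_⟩, h6⟩
  -- the new lower bound
  have hc : 1 ≤ l / 20 := by
    have : 100000 ≤ l := le_trans (by norm_num) hlbig
    omega
  have hp1 : 2 ^ (x + l / 20 - 1) * 2 = 2 ^ x * 2 ^ (l / 20) := by
    have h0 : x + l / 20 - 1 + 1 = x + l / 20 := by omega
    rw [← pow_succ, ← pow_add, h0]
  calc 2 ^ (x + l / 20 - 1) * (2 * W') = 2 ^ x * (2 ^ (l / 20) * W') := by
        rw [← mul_assoc, hp1, mul_assoc]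
    _ ≤ 2 ^ x * (2 * W) := Nat.mul_le_mul_left _ hsize
    _ = 2 * (2 ^ x * W) := by ring
    _ ≤ 2 * D := Nat.mul_le_mul_left _ h1x
    _ = 2 ^ (E + 1) * (P₀ * P₁) := by rw [hD, pow_succ]; ring

/-! ### Second phase -/

/-- classification of old terms during the second phase -/
def OldII (P₀ F₀ n kold E : ℕ) : Prop :=
  n = F₀ ∨ ¬ P₀ ∣ n ∨ ¬ 2 ^ (E + 1 - kold) ∣ n

lemma OldII.mono {P₀ F₀ n k kold E : ℕ} (h : OldII P₀ F₀ n kold E) (hk : k ≤ kold) :
    OldII P₀ F₀ n k E := by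
  rcases h with h | h | h
  · exact Or.inl h
  · exact Or.inr (Or.inl h)
  · refine Or.inr (Or.inr fun hd => h ((pow_dvd_pow 2 (by omega)).trans hd))

lemma OldI.toII {P₀ P₁ F₀ n k E k' E' : ℕ} (h1 : 1 < P₀) (h : OldI P₀ P₁ F₀ n k E) :
    OldII P₀ F₀ n k' E' := by
  rcases h with h | ⟨h2, _⟩ | ⟨_, h3, _⟩
  · exact Or.inl h
  · refine Or.inr (Or.inl fun hd => ?_)
    have h3 : P₀ ∣ P₀ * P₁ := dvd_mul_right _ _
    have h4 := Nat.dvd_gcd hd h3
    rw [h2] at h4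
    have := Nat.le_of_dvd (by norm_num) h4
    omega
  · exact Or.inr (Or.inl h3)

/-- the exponent function of the second phase -/
def phi (L b : ℕ) : ℕ := b - 1 - min (b / 2) L

lemma phi_mono (L : ℕ) {b b' : ℕ} (h : b' ≤ b) : phi L b' ≤ phi L b := by
  unfold phi
  omega

lemma phi_lt (L : ℕ) {b b' : ℕ} (h : b' + 2 ≤ b) (hb : 3 ≤ b) : phi L b' < phi L b := by
  unfold phi
  omega

lemma phi_le (L b : ℕ) : phi L b ≤ b := by
  unfold phi
  omega

/-- The rational identity of a step of the second kind. -/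
lemma identityII {P₀ P₁ t P E k W W' : ℕ} (e g : Fin 17 → ℕ) (hP₀ : 0 < P₀) (hP₁ : 0 < P₁)
    (hPpos : 0 < P) (hkE : k ≤ E) (hg : ∀ j, P₁ = e j * g j)
    (hsum : ∑ j, e j = t * P) (hW : W = t * 2 ^ k + W') :
    ∑ j, (1 : ℚ) / ((P * 2 ^ (E - k) * (P₀ * g j) : ℕ) : ℚ)
      + (W' : ℚ) / (2 ^ E * ((P₀ * P₁ : ℕ) : ℚ))
      = (W : ℚ) / (2 ^ E * ((P₀ * P₁ : ℕ) : ℚ)) := by
  have hP₀q : (P₀ : ℚ) ≠ 0 := by positivity
  have hP₁q : (P₁ : ℚ) ≠ 0 := by positivity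
  have hPq : (P : ℚ) ≠ 0 := by positivity
  have h2E : ((2 : ℚ) ^ E) = 2 ^ k * 2 ^ (E - k) := by
    rw [← pow_add, Nat.add_sub_cancel' hkE]
  have hk0 : ((2 : ℚ) ^ k) ≠ 0 := by positivity
  have hEk0 : ((2 : ℚ) ^ (E - k)) ≠ 0 := by positivity
  have hterm : ∀ j, (1 : ℚ) / ((P * 2 ^ (E - k) * (P₀ * g j) : ℕ) : ℚ)
      = (e j : ℚ) / (P * (2 ^ (E - k) * (P₀ * P₁))) := by
    intro j
    have hgj : (g j : ℚ) ≠ 0 := by
      have : g j ≠ 0 := by
        intro h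
        have := hg j
        rw [h, mul_zero] at this
        omega
      exact_mod_cast this
    have hej : (e j : ℚ) ≠ 0 := by
      have : e j ≠ 0 := by
        intro h
        have := hg j
        rw [h, zero_mul] at this
        omega
      exact_mod_cast this
    have hP : (P₁ : ℚ) = e j * g j := by exact_mod_cast hg j
    push_cast
    rw [hP]
    field_simp
  simp_rw [hterm]
  rw [← Finset.sum_div]
  have hsumQ : ∑ j, (e j : ℚ) = t * P := by exact_mod_cast hsum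
  have hWQ : (W : ℚ) = t * 2 ^ k + W' := by exact_mod_cast hW
  push_cast
  rw [hsumQ, hWQ, h2E]
  field_simp

/-- State of the second phase. -/
structure SII (P₀ P₁ F₀ B L : ℕ) (target : ℚ) (T : Finset ℕ) (W E kold β : ℕ) : Prop where
  two_le : ∀ n ∈ T, 2 ≤ n
  old : ∀ n ∈ T, OldII P₀ F₀ n kold E
  sum_eq : ∑ n ∈ T, (1 : ℚ) / (n : ℚ) + (W : ℚ) / (2 ^ E * ((P₀ * P₁ : ℕ) : ℚ)) = target
  hβ : W < 2 ^ β
  hφ : phi L β < kold
  hk : kold + B ≤ E + 1

/-- One step of the second phase. -/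
theorem stepII {P₀ P₁ L₀ L F₀ B : ℕ} (par : AlgPar P₀ P₁ L₀ L F₀ B) {target : ℚ} {T : Finset ℕ}
    {W E kold β : ℕ} (hS : SII P₀ P₁ F₀ B L target T W E kold β)
    {l₀ : ℕ} (hl₀ : 2 ^ 1036 ≤ l₀) (hWbig : 2 ^ (2 * l₀ + 2) ≤ W) :
    ∃ (b : ℕ) (T' : Finset ℕ) (W' : ℕ), b ≤ β ∧ 2 * l₀ + 2 < b ∧ W < 2 ^ b ∧
      SII P₀ P₁ F₀ B L target T' W' E (phi L b) (phi L b + (min (b / 2) L - min (b / 2) L / 20)) ∧
      T'.card ≤ T.card + 17 := by
  classical
  have hP₀ : 0 < P₀ := by have := par.one₀; omega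
  have hP₁ : 0 < P₁ := by have := par.one₁; omega
  have hLb := par.hLbig
  have hW0 : W ≠ 0 := by
    have : 0 < 2 ^ (2 * l₀ + 2) := Nat.two_pow_pos _
    omega
  set b := Nat.log 2 W + 1 with hb
  have hb1 : 2 ^ (b - 1) ≤ W := by
    rw [hb, Nat.add_sub_cancel]
    exact Nat.pow_log_le_self 2 hW0
  have hb2 : W < 2 ^ b := Nat.lt_pow_succ_log_self (by norm_num) _
  have hbβ : b ≤ β := by
    have h1 := hb2
    by_contra hcon
    have h2 : 2 ^ β ≤ 2 ^ (b - 1) := Nat.pow_le_pow_right (by norm_num) (by omega)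
    have h3 := hS.hβ
    omega
  have hblarge : 2 * l₀ + 2 < b := by
    have h1 := Nat.le_log_of_pow_le (by norm_num) hWbig
    omega
  refine ⟨b, ?_⟩
  set l := min (b / 2) L with hl
  have hlbig : 2 ^ 1036 ≤ l := by
    rw [hl]
    apply le_min _ hLb
    omega
  have hlL : l ≤ L := min_le_right _ _
  set k := phi L b with hk
  have hkl : k + l + 1 = b := by
    have h0 : k = b - 1 - l := rfl
    have h1 : l ≤ b / 2 := min_le_left _ _
    omega
  have hkold : k < kold := lt_of_le_of_lt (phi_mono L hbβ) hS.hφ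
  have hkE : k + B ≤ E := by
    have := hS.hk
    omega
  have hk'E : k ≤ E := by omega
  obtain ⟨t, e, P, W', hPodd, ht0, hinj, he, hsum, hWeq, hW'⟩ :=
    selectII par.cover par.odd₁ W k l hlbig (hlL.trans par.hL)
      (by
        have : k + l = b - 1 := by omega
        rw [this]
        exact hb1)
      (by rw [hkl]; exact hb2)
  have hPpos : 0 < P := hPodd.pos
  set g : Fin 17 → ℕ := fun j => P₁ / e j with hg
  have hgP : ∀ j, P₁ = e j * g j := fun j => (Nat.mul_div_cancel' (he j).1).symm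
  have hg0 : ∀ j, 0 < g j := by
    intro j
    rcases Nat.eq_zero_or_pos (g j) with h | h
    · have := hgP j
      rw [h, mul_zero] at this
      omega
    · exact h
  have hgodd : ∀ j, Odd (g j) := by
    intro j
    have h1 := par.odd₁
    rw [hgP j] at h1
    exact (Nat.odd_mul.mp h1).2
  set n : Fin 17 → ℕ := fun j => P * 2 ^ (E - k) * (P₀ * g j) with hn
  have hneq : ∀ j, n j = 2 ^ (E - k) * (P * (P₀ * g j)) := fun j => by simp only [hn]; ring
  have hn1 : ∀ j, 2 ^ (E - k) ∣ n j := fun j => by rw [hneq]; exact dvd_mul_right _ _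
  have hn2 : ∀ j, ¬ 2 ^ (E - k + 1) ∣ n j := fun j => by
    rw [hneq]
    exact two_pow_not_dvd_of_odd (hPodd.mul (par.odd₀.mul (hgodd j)))
  have hn3 : ∀ j, P₀ ∣ n j := fun j => ⟨P * 2 ^ (E - k) * g j, by simp only [hn]; ring⟩
  have hnpos : ∀ j, 0 < n j := fun j => by
    rw [hneq]
    exact Nat.mul_pos (Nat.two_pow_pos _) (Nat.mul_pos hPpos (Nat.mul_pos hP₀ (hg0 j)))
  have hn4 : ∀ j, 2 ^ B ≤ n j := fun j => by
    have h1 := Nat.le_of_dvd (hnpos j) (hn1 j)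
    have h2 : 2 ^ B ≤ 2 ^ (E - k) := Nat.pow_le_pow_right (by norm_num) (by omega)
    omega
  have hn5 : ∀ j, 2 ≤ n j := fun j => by
    have h1 := Nat.le_of_dvd (hnpos j) (hn3 j)
    have := par.one₀
    omega
  have hninj : Function.Injective n := by
    intro i j hij
    have h1 : P * 2 ^ (E - k) * (P₀ * g i) = P * 2 ^ (E - k) * (P₀ * g j) := hij
    have h2 : P₀ * g i = P₀ * g j :=
      Nat.eq_of_mul_eq_mul_left (Nat.mul_pos hPpos (Nat.two_pow_pos _)) h1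
    have h3 : g i = g j := Nat.eq_of_mul_eq_mul_left hP₀ h2
    have h4 : e i * g i = e j * g i := by
      rw [← hgP i]
      rw [h3, ← hgP j]
    exact hinj (Nat.eq_of_mul_eq_mul_right (hg0 i) h4)
  have hnT : ∀ j, n j ∉ T := by
    intro j hmem
    rcases hS.old (n j) hmem with h | h | h
    · have h1 := hn4 j
      have h2 := par.hF2
      omega
    · exact h (hn3 j)
    · exact h ((pow_dvd_pow 2 (by omega)).trans (hn1 j))
  set Tn := (Finset.univ : Finset (Fin 17)).image n with hTn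
  have hdisj : Disjoint T Tn := by
    rw [Finset.disjoint_left]
    intro m hm hm2
    obtain ⟨j, _, rfl⟩ := Finset.mem_image.mp hm2
    exact hnT j hm
  refine ⟨T ∪ Tn, W', le_trans (le_of_eq rfl) hbβ, hblarge, hb2, ⟨?_, ?_, ?_, ?_, ?_, ?_⟩, ?_⟩
  · intro m hm
    rcases Finset.mem_union.mp hm with hm | hm
    · exact hS.two_le m hm
    · obtain ⟨j, _, rfl⟩ := Finset.mem_image.mp hm
      exact hn5 j
  · intro m hm
    rcases Finset.mem_union.mp hm with hm | hm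
    · exact (hS.old m hm).mono hkold.le
    · obtain ⟨j, _, rfl⟩ := Finset.mem_image.mp hm
      refine Or.inr (Or.inr ?_)
      have h0 : E + 1 - k = E - k + 1 := by omega
      rw [h0]
      exact hn2 j
  · rw [Finset.sum_union hdisj, hTn, Finset.sum_image (fun x _ y _ h => hninj h)]
    have hid := identityII (W := W) (W' := W') (k := k) (E := E) e g hP₀ hP₁ hPpos hk'E hgP hsum hWeq
    rw [← hS.sum_eq, ← hid]
    ring
  · exact hW'
  · apply phi_lt L _ (by omega)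
    have h1 : 1 ≤ l / 20 := by
      have : 100000 ≤ l := le_trans (by norm_num) hlbig
      omega
    have h2 : l - l / 20 + l / 20 = l := by omega
    omega
  · have := hS.hk
    omega
  · have h2 : (T ∪ Tn).card ≤ T.card + Tn.card := Finset.card_union_le _ _
    have h3 : Tn.card ≤ (Finset.univ : Finset (Fin 17)).card := Finset.card_image_le
    simp only [Finset.card_univ, Fintype.card_fin] at h3
    omega

end Crest.Agent.Egy
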